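import Vale.Agent.P247.H514.Slice6

/-!
# P247, Stage 2, package ICUR-INT: the slice theorem.
-/

open Set MeasureTheory Filter Topology Metric
open scoped ENNReal ProbabilityTheory

noncomputable section

namespace Vale.Agent.P247.H514

variable {U V : Set ℂ} {τ : Measure (ℂ × ℂ)} {F e : ℕ → ℂ × ℂ → ℝ}
  {A B : ℕ → ℂ → ℂ × ℂ → ℝ} {C : ℝ≥0∞}

lemma ae_of_compact (hU : IsOpen U) {p : ℂ → Prop}
    (h : ∀ K : Set ℂ, IsCompact K → K ⊆ U → ∀ᵐ z ∂(volume.restrict K), p z) :
    ∀ᵐ z ∂(volume.restrict U), p z := by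
  obtain ⟨F, hFc, hFU, hFun, -⟩ := hU.exists_iUnion_isClosed
  rw [ae_restrict_iff' hU.measurableSet]
  have h1 : ∀ n m : ℕ, ∀ᵐ z : ℂ, z ∈ F n ∩ closedBall 0 (m : ℝ) → p z := by
    intro n m
    have hK : IsCompact (F n ∩ closedBall 0 (m : ℝ)) := (isCompact_closedBall _ _).inter_left (hFc n)
    rw [← ae_restrict_iff' hK.measurableSet]
    exact h _ hK (inter_subset_left.trans (hFU n))
  have h2 : ∀ᵐ z : ℂ, ∀ n m : ℕ, z ∈ F n ∩ closedBall 0 (m : ℝ) → p z :=
    ae_all_iff.2 fun n => ae_all_iff.2 fun m => h1 n m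
  filter_upwards [h2] with z hz hzU
  rw [← hFun] at hzU
  obtain ⟨n, hn⟩ := mem_iUnion.1 hzU
  obtain ⟨m, hm⟩ := exists_nat_ge ‖z‖
  exact hz n m ⟨hn, by simpa using hm⟩

lemma meas_sq [IsFiniteMeasure τ] (c : ℂ) :
    Measurable fun q : ℂ × ℝ => TT τ q.1 (Sq c q.2) := by
  have h1 : Measurable fun q : ℂ × ℝ => τ.condKernel q.1 (Sq c q.2) := by
    let κ : ProbabilityTheory.Kernel (ℂ × ℝ) ℂ := τ.condKernel.comap Prod.fst measurable_fst
    have ht : MeasurableSet {r : (ℂ × ℝ) × ℂ | |(r.2 - c).re| < r.1.2 ∧ |(r.2 - c).im| < r.1.2} := by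
      have h2 : Continuous fun r : (ℂ × ℝ) × ℂ => |(r.2 - c).re| := by fun_prop
      have h3 : Continuous fun r : (ℂ × ℝ) × ℂ => |(r.2 - c).im| := by fun_prop
      have h4 : Continuous fun r : (ℂ × ℝ) × ℂ => r.1.2 := by fun_prop
      exact ((isOpen_lt h2 h4).inter (isOpen_lt h3 h4)).measurableSet
    exact ProbabilityTheory.Kernel.measurable_kernel_prodMk_left (κ := κ) ht
  exact ((Measure.measurable_rnDeriv _ _).comp measurable_fst).mul h1

lemma meas_sin [IsFiniteMeasure τ] (c : ℂ) :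
    Measurable fun q : ℂ × ℝ => ‖Real.sin (Real.pi * (TT τ q.1).real (Sq c q.2))‖ₑ := by
  have h1 : Measurable fun q : ℂ × ℝ => (TT τ q.1).real (Sq c q.2) := (meas_sq c).ennreal_toReal
  have h2 : Measurable fun q : ℂ × ℝ => Real.pi * (TT τ q.1).real (Sq c q.2) := h1.const_mul _
  exact (Real.measurable_sin.comp h2).enorm

lemma meas_sin1 (T : Measure ℂ) (c : ℂ) :
    Measurable fun s : ℝ => ‖Real.sin (Real.pi * T.real (Sq c s))‖ₑ := by
  have h0 : Monotone fun s : ℝ => T (Sq c s) := fun a b hab => measure_mono (Sq_mono c hab)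
  have h1 : Measurable fun s : ℝ => T.real (Sq c s) := h0.measurable.ennreal_toReal
  have h2 : Measurable fun s : ℝ => Real.pi * T.real (Sq c s) := h1.const_mul _
  exact (Real.measurable_sin.comp h2).enorm

lemma ae_zero_of_lint {α : Type*} [MeasurableSpace α] {μ : Measure α} {g : α → ℝ}
    (hm : Measurable fun s => ‖g s‖ₑ) (h : ∫⁻ s, ‖g s‖ₑ ∂μ = 0) : ∀ᵐ s ∂μ, g s = 0 := by
  have h2 := (lintegral_eq_zero_iff hm).1 h
  filter_upwards [h2] with s hs
  exact enorm_eq_zero.1 hs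

lemma ae_zero_of_lint2 {α : Type*} [MeasurableSpace α] {μ : Measure α} {g : α → ℝ≥0∞}
    (hm : Measurable g) (h : ∫⁻ s, g s ∂μ = 0) : ∀ᵐ s ∂μ, g s = 0 :=
  (lintegral_eq_zero_iff hm).1 h

lemma SliceData.ae_sin (D : SliceData U V τ F e A B C) [IsFiniteMeasure τ] {c : ℂ} {S : ℝ}
    (hS : 0 < S) (hcS : CSq c S ⊆ V) :
    ∀ᵐ z ∂(volume.restrict U), ∀ᵐ s ∂(volume.restrict (Ioc 0 S)),
      Real.sin (Real.pi * (TT τ z).real (Sq c s)) = 0 := by
  apply ae_of_compact D.hU
  intro K hK hKU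
  have h0 := D.sin_zero hK hKU hS hcS
  have hm1 : Measurable fun z : ℂ => ∫⁻ s in Ioc 0 S,
      ‖Real.sin (Real.pi * (TT τ z).real (Sq c s))‖ₑ := (meas_sin c).lintegral_prod_right'
  filter_upwards [ae_zero_of_lint2 hm1 h0] with z hz
  exact ae_zero_of_lint (meas_sin1 (TT τ z) c) hz

lemma nat_of_sin {T : Measure ℂ} [IsFiniteMeasure T] {s : Set ℂ}
    (h : Real.sin (Real.pi * T.real s) = 0) : ∃ k : ℕ, T s = k := by
  obtain ⟨n, hn⟩ := Real.sin_eq_zero_iff.1 h
  have h1 : (n : ℝ) = T.real s := by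
    rw [mul_comm] at hn
    exact mul_left_cancel₀ Real.pi_ne_zero hn
  have h2 : 0 ≤ n := by
    have : (0 : ℝ) ≤ n := by rw [h1]; exact measureReal_nonneg
    exact_mod_cast this
  obtain ⟨k, rfl⟩ := Int.eq_ofNat_of_zero_le h2
  refine ⟨k, ?_⟩
  rw [← ENNReal.ofReal_toReal (measure_ne_top T s), ← measureReal_def, ← h1]
  simp

/-- **The slice theorem.** -/
theorem slice_theorem : Slice_statement := by
  intro U V τ _ F e A B C D
  have hac := D.fst_ac
  refine ⟨TT τ, TT_measurable, ?_, ?_, ?_⟩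
  · -- the slices are sums of Dirac masses
    have h1 : ∀ᵐ z ∂(volume.restrict U), ∀ (i : ℕ) (q : ℚ), 0 < (q : ℝ) →
        CSq (TopologicalSpace.denseSeq ℂ i) q ⊆ V →
        ∀ᵐ s ∂(volume.restrict (Ioc 0 (q : ℝ))),
          Real.sin (Real.pi * (TT τ z).real (Sq (TopologicalSpace.denseSeq ℂ i) s)) = 0 := by
      rw [ae_all_iff]; intro i
      rw [ae_all_iff]; intro q
      by_cases hq : 0 < (q : ℝ)
      · by_cases hqV : CSq (TopologicalSpace.denseSeq ℂ i) q ⊆ V
        · filter_upwards [D.ae_sin hq hqV] with z hz _ _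
          exact hz
        · exact Eventually.of_forall fun z _ h => absurd h hqV
      · exact Eventually.of_forall fun z h => absurd h hq
    filter_upwards [h1, ae_restrict_of_ae (TT_finite (τ := τ)),
      ae_restrict_of_ae (TT_compl hac D.hV D.hτ)] with z hz hfin hV0
    have : IsFiniteMeasure (TT τ z) := ⟨hfin⟩
    apply integer_measure D.hV hV0 (TopologicalSpace.denseRange_denseSeq ℂ)
    rintro _ ⟨i, rfl⟩ S hS hSV
    rw [ae_restrict_iff' measurableSet_Ioo]
    have h2 : ∀ᵐ s : ℝ, ∀ q : ℚ, 0 < (q : ℝ) → CSq (TopologicalSpace.denseSeq ℂ i) q ⊆ V →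
        s ∈ Ioc 0 (q : ℝ) →
        Real.sin (Real.pi * (TT τ z).real (Sq (TopologicalSpace.denseSeq ℂ i) s)) = 0 := by
      rw [ae_all_iff]; intro q
      by_cases hq : 0 < (q : ℝ)
      · by_cases hqV : CSq (TopologicalSpace.denseSeq ℂ i) q ⊆ V
        · have h3 := hz i q hq hqV
          rw [ae_restrict_iff' measurableSet_Ioc] at h3
          filter_upwards [h3] with s hs _ _
          exact hs
        · exact Eventually.of_forall fun z _ h => absurd h hqV
      · exact Eventually.of_forall fun z h => absurd h hq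
    filter_upwards [h2] with s hs hsS
    obtain ⟨q, hq1, hq2⟩ := exists_rat_btwn hsS.2
    exact nat_of_sin (hs q (hsS.1.trans hq1) ((CSq_mono _ hq2.le).trans hSV) ⟨hsS.1, hq1.le⟩)
  · intro f hf
    rw [lint_TT hac hf, ← lintegral_add_compl _ D.hU.measurableSet]
    have h0 : ∫⁻ z in Uᶜ, ∫⁻ y, f (z, y) ∂(TT τ z) = 0 := by
      have hUc : MeasurableSet (Uᶜ ×ˢ (univ : Set ℂ)) :=
        D.hU.measurableSet.compl.prod MeasurableSet.univ
      have h1 := lint_TT hac (f := (Uᶜ ×ˢ (univ : Set ℂ)).indicator f) (hf.indicator hUc)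
      have h2 : ∫⁻ p, (Uᶜ ×ˢ (univ : Set ℂ)).indicator f p ∂τ = 0 := by
        rw [lintegral_indicator hUc]
        apply setLIntegral_measure_zero
        refine measure_mono_null ?_ D.hτ
        intro p hp hp'
        exact hp.1 hp'.1
      rw [h2] at h1
      rw [h1, ← lintegral_indicator D.hU.measurableSet.compl]
      apply lintegral_congr
      intro z
      by_cases hz : z ∈ Uᶜ
      · rw [indicator_of_mem hz]
        apply lintegral_congr
        intro y
        rw [indicator_of_mem (show (z, y) ∈ Uᶜ ×ˢ (univ : Set ℂ) from ⟨hz, mem_univ _⟩)]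
      · rw [indicator_of_notMem hz]
        have : ∀ y, (Uᶜ ×ˢ (univ : Set ℂ)).indicator f (z, y) = 0 := fun y =>
          indicator_of_notMem (fun h => hz h.1) _
        simp [this]
    rw [h0, add_zero]
  · intro f hf
    obtain ⟨h1, h2⟩ := int_TT hac hf
    refine ⟨h1.integrableOn, ?_⟩
    rw [h2, ← integral_add_compl D.hU.measurableSet h1]
    have hUc : MeasurableSet (Uᶜ ×ˢ (univ : Set ℂ)) :=
      D.hU.measurableSet.compl.prod MeasurableSet.univ
    have hg : Integrable ((Uᶜ ×ˢ (univ : Set ℂ)).indicator f) τ := hf.indicator hUc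
    have h3 := (int_TT hac hg).2
    have h4 : ∫ p, (Uᶜ ×ˢ (univ : Set ℂ)).indicator f p ∂τ = 0 := by
      rw [integral_indicator hUc]
      apply setIntegral_measure_zero
      refine measure_mono_null ?_ D.hτ
      intro p hp hp'
      exact hp.1 hp'.1
    rw [h4] at h3
    have h5 : ∫ z in Uᶜ, ∫ y, f (z, y) ∂(TT τ z) = 0 := by
      rw [h3, ← integral_indicator D.hU.measurableSet.compl]
      congr 1
      ext z
      by_cases hz : z ∈ Uᶜ
      · rw [indicator_of_mem hz]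
        congr 1
        ext y
        rw [indicator_of_mem (show (z, y) ∈ Uᶜ ×ˢ (univ : Set ℂ) from ⟨hz, mem_univ _⟩)]
      · rw [indicator_of_notMem hz]
        have : ∀ y, (Uᶜ ×ˢ (univ : Set ℂ)).indicator f (z, y) = 0 := fun y =>
          indicator_of_notMem (fun h => hz h.1) _
        simp [this]
    rw [h5, add_zero]

end Vale.Agent.P247.H514
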