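import Vale.Agent.P247.H514.BoxTau
import Vale.Agent.P247.H514.Slice7

/-!
# P247, Stage 2, package ICUR: the field `int` of `ICur` from the slice theorem.
-/

open scoped ContDiff Topology ENNReal
open Set MeasureTheory Filter Metric

noncomputable section

namespace Vale.Agent.P247.H514

open Vale.Agent.P247.H74 Vale.Agent.P247.H574 Vale.Agent.P247.H264 Vale.Agent.P247.H899

lemma restrict_sum_dirac (P : Multiset ℂ) {s : Set ℂ} (hs : MeasurableSet s) :
    ∃ Q : Multiset ℂ, ((P.map Measure.dirac).sum : Measure ℂ).restrict s =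
      (Q.map Measure.dirac).sum := by
  classical
  refine ⟨P.filter (· ∈ s), ?_⟩
  induction P using Multiset.induction_on with
  | empty => simp
  | cons a P ih =>
    rw [Multiset.map_cons, Multiset.sum_cons, Measure.restrict_add, ih, restrict_dirac' hs]
    by_cases ha : a ∈ s
    · rw [if_pos ha, Multiset.filter_cons_of_pos _ ha, Multiset.map_cons, Multiset.sum_cons]
    · rw [if_neg ha, Multiset.filter_cons_of_neg _ ha, zero_add]

variable {D : Data} (b : Box D)

/-- The field `int`. -/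
theorem int_field {T : (R4 → F2) → ℝ} {τ : Measure (ℂ × ℂ)} [IsFiniteMeasure τ]
    (hT : ∀ f : ℂ × ℂ → ℝ, Continuous f → HasCompactSupport f → tsupport f ⊆ PD 1 →
      T (pf b f) = ∫ p, f p ∂τ)
    {F e : ℕ → ℂ × ℂ → ℝ} {A B : ℕ → ℂ → ℂ × ℂ → ℝ} {C : ℝ≥0∞}
    (h : SliceData (ball 0 1) (ball 0 1) τ F e A B C) :
    ∃ ν : ℂ → Measure ℂ,
    (∀ᵐ z ∂volume.restrict (ball (0 : ℂ) 1), IntM (ν z)) ∧
    ∀ f : ℂ × ℂ → ℝ, Continuous f → HasCompactSupport f → tsupport f ⊆ PD 1 →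
      IntegrableOn (fun z => ∫ y, f (z, y) ∂(ν z)) (ball 0 1) ∧
      ∀ φ, IsPush b f φ → T φ = ∫ z in ball (0 : ℂ) 1, ∫ y, f (z, y) ∂(ν z) := by
  obtain ⟨ν, -, hν1, -, hν3⟩ := slice_theorem _ _ τ F e A B C h
  refine ⟨ν, ?_, ?_⟩
  · filter_upwards [hν1] with z hz r _
    obtain ⟨P, -, hP⟩ := hz
    rw [hP]
    exact restrict_sum_dirac P isOpen_ball.measurableSet
  · intro f hf hfc hfs
    obtain ⟨L, hL⟩ := hf.bounded_above_of_compact_support hfc
    have hfi : Integrable f τ := integrable_bdd hf hL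
    obtain ⟨h1, h2⟩ := hν3 f hfi
    refine ⟨h1, fun φ hφ => ?_⟩
    rw [isPush_unique b hφ, hT f hf hfc hfs, h2]

end Vale.Agent.P247.H514
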