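import Vale.Agent.P247.H899.Alg
import Vale.Agent.P247.H264.Kit

/-!
# P247, Stage 2, package ICUR: the measure of a positive functional in a box.
-/

open scoped ContDiff Topology
open Set MeasureTheory Filter Metric

noncomputable section

namespace Vale.Agent.P247.H514

open Vale.Agent.P247.H74 Vale.Agent.P247.H574 Vale.Agent.P247.H264 Vale.Agent.P247.H899

variable {D : Data} (b : Box D)

/-- push-forward of `f dx ∧ dy` -/
def pf (f : ℂ × ℂ → ℝ) : R4 → F2 := push2 b fun p => f p • lam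

lemma pf_on (f : ℂ × ℂ → ℝ) {p : ℂ × ℂ} (hp : p ∈ PD 2) (v w : ℂ × ℂ) :
    pf b f (b.Θ p) (fderiv ℝ b.Θ p v) (fderiv ℝ b.Θ p w) = f p * lam v w := by
  rw [pf, push2_apply b _ hp]
  rfl

lemma pf_off (f : ℂ × ℂ → ℝ) {x : R4} (hx : x ∉ b.Θ '' PD 2) : pf b f x = 0 := push2_off b _ hx

lemma isPush_pf {f : ℂ × ℂ → ℝ} (hf : Continuous f) (hfc : HasCompactSupport f)
    (hfs : tsupport f ⊆ PD 2) : IsPush b f (pf b f) := (exists_isPush b hf hfc hfs).1

lemma isPush_unique {f : ℂ × ℂ → ℝ} {φ : R4 → F2} (h : IsPush b f φ) : φ = pf b f := by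
  funext x
  by_cases hx : x ∈ b.Θ '' PD 2
  · obtain ⟨p, hp, rfl⟩ := hx
    refine f2_ext b hp fun v w => ?_
    rw [h.on p hp, pf_on b f hp]
    rfl
  · rw [h.off x hx, pf_off b f hx]

lemma lam_J {p : ℂ × ℂ} (hp : p ∈ PD 2) {v w : ℂ × ℂ}
    (h1 : t1 b p w = Complex.I * t1 b p v) (h2 : t2 b p w = Complex.I * t2 b p v) :
    0 ≤ lam v w := by
  have h3 := Hm_J b p 1 0 0 h1 h2
  rw [Hm_a] at h3
  have h4 := one_sub_pos b hp
  have h5 : (1 - ‖b.m p‖ ^ 2) * lam v w = ‖t1 b p v‖ ^ 2 := by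
    rw [lam_apply]
    simpa using h3
  have h6 : 0 ≤ (1 - ‖b.m p‖ ^ 2) * lam v w := by rw [h5]; positivity
  exact nonneg_of_mul_nonneg_right h6 h4

lemma pf_pos {f : ℂ × ℂ → ℝ} (hf : ∀ p ∈ PD 2, 0 ≤ f p) (x : R4) (u : R4) :
    0 ≤ pf b f x u (D.J x u) := by
  by_cases hx : x ∈ b.Θ '' PD 2
  · obtain ⟨p, hp, rfl⟩ := hx
    obtain ⟨v, rfl⟩ := surj_dΘ b hp u
    obtain ⟨w, h1, h2, h3⟩ := exists_J b hp v
    rw [h3, pf_on b f hp]
    exact mul_nonneg (hf p hp) (lam_J b hp h1 h2)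
  · rw [pf_off b f hx]
    exact le_rfl

lemma pf_add (f g : ℂ × ℂ → ℝ) : pf b (fun p => f p + g p) = pf b f + pf b g := by
  funext x
  by_cases hx : x ∈ b.Θ '' PD 2
  · obtain ⟨p, hp, rfl⟩ := hx
    refine f2_ext b hp fun v w => ?_
    show _ = pf b f (b.Θ p) (fderiv ℝ b.Θ p v) (fderiv ℝ b.Θ p w) +
      pf b g (b.Θ p) (fderiv ℝ b.Θ p v) (fderiv ℝ b.Θ p w)
    rw [pf_on b _ hp, pf_on b _ hp, pf_on b _ hp, add_mul]
  · refine ext_F2 fun u v => ?_
    show _ = pf b f x u v + pf b g x u v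
    rw [pf_off b _ hx, pf_off b _ hx, pf_off b _ hx]
    show (0 : ℝ) = 0 + 0
    ring

lemma pf_smul (c : ℝ) (f : ℂ × ℂ → ℝ) : pf b (fun p => c * f p) = c • pf b f := by
  funext x
  by_cases hx : x ∈ b.Θ '' PD 2
  · obtain ⟨p, hp, rfl⟩ := hx
    refine f2_ext b hp fun v w => ?_
    show _ = c * pf b f (b.Θ p) (fderiv ℝ b.Θ p v) (fderiv ℝ b.Θ p w)
    rw [pf_on b _ hp, pf_on b _ hp, mul_assoc]
  · refine ext_F2 fun u v => ?_
    show _ = c * pf b f x u v
    rw [pf_off b _ hx, pf_off b _ hx]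
    show (0 : ℝ) = c * 0
    ring

/-- a continuous cut-off of the closed unit polydisc in the polydisc of radius 2 -/
lemma exists_chi : ∃ χ : C(ℂ × ℂ, ℝ), (∀ p ∈ closedBall (0 : ℂ) 1 ×ˢ closedBall (0 : ℂ) 1, χ p = 1) ∧
    HasCompactSupport χ ∧ tsupport χ ⊆ PD 2 ∧ ∀ p, χ p ∈ Icc (0 : ℝ) 1 := by
  have hK : IsCompact (closedBall (0 : ℂ) 1 ×ˢ closedBall (0 : ℂ) 1) :=
    (isCompact_closedBall _ _).prod (isCompact_closedBall _ _)
  have hsub : closedBall (0 : ℂ) 1 ×ˢ closedBall (0 : ℂ) 1 ⊆ PD (3 / 2) :=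
    prod_mono (closedBall_subset_ball (by norm_num)) (closedBall_subset_ball (by norm_num))
  obtain ⟨χ, h1, h0, hc, h01⟩ := exists_continuous_one_zero_of_isCompact hK
    (isOpen_PD (3 / 2)).isClosed_compl (disjoint_compl_right_iff_subset.2 hsub)
  have hsup : tsupport χ ⊆ closedBall (0 : ℂ) (3 / 2) ×ˢ closedBall (0 : ℂ) (3 / 2) := by
    refine closure_minimal ?_ (isClosed_closedBall.prod isClosed_closedBall)
    intro p hp
    by_contra h
    apply hp
    apply h0
    intro h'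
    exact h (prod_mono ball_subset_closedBall ball_subset_closedBall h')
  refine ⟨χ, fun p hp => h1 hp, hc, hsup.trans ?_, h01⟩
  exact prod_mono (closedBall_subset_ball (by norm_num)) (closedBall_subset_ball (by norm_num))

/-- The measure of a positive functional in a box. -/
theorem exists_tau {T : (R4 → F2) → ℝ}
    (hadd : ∀ φ ψ, CF φ → CF ψ → T (φ + ψ) = T φ + T ψ)
    (hsmul : ∀ (c : ℝ) φ, CF φ → T (c • φ) = c * T φ)
    (hpos : ∀ φ, CF φ → (∀ x u, 0 ≤ φ x u (D.J x u)) → 0 ≤ T φ) :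
    ∃ τ : Measure (ℂ × ℂ), IsFiniteMeasure τ ∧ τ (PD 1)ᶜ = 0 ∧
      ∀ f : ℂ × ℂ → ℝ, Continuous f → HasCompactSupport f → tsupport f ⊆ PD 1 →
        T (pf b f) = ∫ p, f p ∂τ := by
  obtain ⟨χ, hχ1, hχc, hχ2, hχ⟩ := exists_chi
  have hcf : ∀ f : ℂ × ℂ → ℝ, Continuous f → CF (pf b fun p => χ p * f p) := by
    intro f hf
    refine (isPush_pf b (χ.continuous.mul hf) (hχc.mul_right (f' := f)) ?_).cf
    exact (tsupport_mul_subset_left (f := χ) (g := f)).trans hχ2
  let Λ : CompactlySupportedContinuousMap (ℂ × ℂ) ℝ →ₚ[ℝ] ℝ :=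
    PositiveLinearMap.mk₀
      { toFun := fun f => T (pf b fun p => χ p * f p)
        map_add' := fun f g => by
          have h := hadd _ _ (hcf f f.continuous) (hcf g g.continuous)
          refine Eq.trans ?_ h
          rw [← pf_add]
          congr 2
          funext p
          show χ p * (f p + g p) = _
          ring
        map_smul' := fun c f => by
          have h := hsmul c _ (hcf f f.continuous)
          refine Eq.trans ?_ h
          rw [← pf_smul]
          congr 2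
          funext p
          show χ p * (c * f p) = _
          ring }
      (fun f hf => by
        refine hpos _ (hcf f f.continuous) fun x u => ?_
        refine pf_pos b (fun p _ => ?_) x u
        exact mul_nonneg (hχ p).1 (hf p))
  set μ := RealRMK.rieszMeasure Λ with hμ
  have hμr : μ.Regular := by rw [hμ]; infer_instance
  have hfin : IsFiniteMeasure (μ.restrict (PD 1)) := by
    constructor
    rw [Measure.restrict_apply_univ]
    have hK : IsCompact (closedBall (0 : ℂ) 1 ×ˢ closedBall (0 : ℂ) 1) :=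
      (isCompact_closedBall _ _).prod (isCompact_closedBall _ _)
    exact lt_of_le_of_lt (measure_mono (prod_mono ball_subset_closedBall ball_subset_closedBall))
      hK.measure_lt_top
  refine ⟨μ.restrict (PD 1), hfin, ?_, ?_⟩
  · rw [Measure.restrict_apply (isOpen_PD 1).measurableSet.compl]
    simp
  · intro f hf hfc hfs
    have h1 : (fun p => χ p * f p) = f := by
      funext p
      by_cases hp : p ∈ PD 1
      · rw [hχ1 p (prod_mono ball_subset_closedBall ball_subset_closedBall hp), one_mul]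
      · rw [image_eq_zero_of_notMem_tsupport (fun h => hp (hfs h)), mul_zero]
    have h2 : ∫ p, f p ∂μ = T (pf b fun p => χ p * f p) :=
      RealRMK.integral_rieszMeasure Λ ⟨⟨f, hf⟩, hfc⟩
    rw [h1] at h2
    rw [← h2, ← integral_indicator (isOpen_PD 1).measurableSet]
    congr 1
    funext p
    by_cases hp : p ∈ PD 1
    · rw [indicator_of_mem hp]
    · rw [indicator_of_notMem hp, image_eq_zero_of_notMem_tsupport (fun h => hp (hfs h))]

end Vale.Agent.P247.H514
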