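import Mathlib

/-!
Hole filling iteration: a monotone bounded function with
`e t <= theta * e (2 t) + B t ^ 2` for small `t` decays like a power.
-/

namespace Vale.Agent.P247.H514

theorem hole {θ B M : ℝ} (hθ : 0 ≤ θ) (hθ1 : θ < 1) (hB : 0 ≤ B) (hM : 0 ≤ M) :
    ∃ C γ : ℝ, 0 ≤ C ∧ 0 < γ ∧ ∀ e : ℝ → ℝ, Monotone e → (∀ t, 0 ≤ e t) → (∀ t, e t ≤ M) →
      (∀ t, 0 < t → t ≤ 1 / 4 → e t ≤ θ * e (2 * t) + B * t ^ 2) →
      ∀ t, 0 < t → e t ≤ C * t ^ (2 * γ) := by
  set lam : ℝ := (1 + θ) / 2 with hlam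
  have hl0 : 1 / 2 ≤ lam := by rw [hlam]; linarith
  have hl1 : lam < 1 := by rw [hlam]; linarith
  have hlpos : 0 < lam := by linarith
  have hlt : θ < lam := by rw [hlam]; linarith
  set s : ℝ := -Real.logb 2 lam with hs
  have hs0 : 0 < s := by
    rw [hs]
    have := Real.logb_neg (b := 2) (by norm_num) hlpos hl1
    linarith
  have hs1 : s ≤ 1 := by
    rw [hs]
    have h1 : Real.logb 2 (1 / 2) ≤ Real.logb 2 lam :=
      Real.logb_le_logb_of_le (by norm_num) (by norm_num) hl0
    have h2 : Real.logb 2 (1 / 2 : ℝ) = -1 := by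
      rw [one_div, Real.logb_inv, Real.logb_self_eq_one (by norm_num)]
    rw [h2] at h1
    linarith
  have h2s : (2 : ℝ) ^ s = lam⁻¹ := by
    rw [hs, Real.rpow_neg (by norm_num), Real.rpow_logb (by norm_num) (by norm_num) hlpos]
  set C : ℝ := M * 4 ^ s + B / (lam - θ) with hC
  have h4 : (0 : ℝ) < 4 ^ s := Real.rpow_pos_of_pos (by norm_num) _
  have hCM : M * 4 ^ s ≤ C := by
    rw [hC]
    have : 0 ≤ B / (lam - θ) := div_nonneg hB (by linarith)
    linarith
  have hCB : B / (lam - θ) ≤ C := by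
    rw [hC]
    have : 0 ≤ M * 4 ^ s := mul_nonneg hM h4.le
    linarith
  have hC0 : 0 ≤ C := le_trans (mul_nonneg hM h4.le) hCM
  refine ⟨C, s / 2, hC0, by linarith, ?_⟩
  intro e _ he0 heM hrec t ht
  have hss : 2 * (s / 2) = s := by ring
  rw [hss]
  have key : ∀ n : ℕ, ∀ t : ℝ, 0 < t → 1 / 4 < t * 2 ^ n → e t ≤ C * t ^ s := by
    intro n
    induction n with
    | zero =>
      intro t ht h
      rw [pow_zero, mul_one] at h
      refine (heM t).trans (le_trans ?_ (mul_le_mul_of_nonneg_right hCM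
        (Real.rpow_nonneg ht.le _)))
      have h1 : (1 : ℝ) ≤ 4 ^ s * t ^ s := by
        rw [← Real.mul_rpow (by norm_num) ht.le]
        exact Real.one_le_rpow (by linarith) hs0.le
      calc M = M * 1 := by ring
        _ ≤ M * (4 ^ s * t ^ s) := mul_le_mul_of_nonneg_left h1 hM
        _ = M * 4 ^ s * t ^ s := by ring
    | succ n ih =>
      intro t ht h
      by_cases h4t : 1 / 4 < t
      · refine (heM t).trans (le_trans ?_ (mul_le_mul_of_nonneg_right hCM
          (Real.rpow_nonneg ht.le _)))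
        have h1 : (1 : ℝ) ≤ 4 ^ s * t ^ s := by
          rw [← Real.mul_rpow (by norm_num) ht.le]
          exact Real.one_le_rpow (by linarith) hs0.le
        calc M = M * 1 := by ring
          _ ≤ M * (4 ^ s * t ^ s) := mul_le_mul_of_nonneg_left h1 hM
          _ = M * 4 ^ s * t ^ s := by ring
      · have h4t' : t ≤ 1 / 4 := not_lt.mp h4t
        have h1 := ih (2 * t) (by linarith) (by
          have : 2 * t * 2 ^ n = t * 2 ^ (n + 1) := by ring
          rw [this]; exact h)
        have h2 := hrec t ht h4t'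
        have h3 : (2 * t) ^ s = lam⁻¹ * t ^ s := by
          rw [Real.mul_rpow (by norm_num) ht.le, h2s]
        rw [h3] at h1
        have hts : 0 ≤ t ^ s := Real.rpow_nonneg ht.le _
        have h5 : t ^ 2 ≤ t ^ s := by
          rw [← Real.rpow_natCast t 2]
          exact Real.rpow_le_rpow_of_exponent_ge ht (by linarith) (by push_cast; linarith)
        have h6 : θ * e (2 * t) ≤ θ * (C * (lam⁻¹ * t ^ s)) := mul_le_mul_of_nonneg_left h1 hθ
        have h7 : B * t ^ 2 ≤ B * t ^ s := mul_le_mul_of_nonneg_left h5 hB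
        have h8 : B ≤ C * (lam - θ) := by
          have := (div_le_iff₀ (by linarith : (0 : ℝ) < lam - θ)).mp hCB
          exact this
        have h9 : B ≤ C * (1 - θ * lam⁻¹) := by
          have h10 : (1 - θ * lam⁻¹) = (lam - θ) * lam⁻¹ := by
            field_simp
          have h11 : (1 : ℝ) ≤ lam⁻¹ := (one_le_inv₀ hlpos).mpr hl1.le
          calc B = B * 1 := by ring
            _ ≤ (C * (lam - θ)) * lam⁻¹ :=
                mul_le_mul h8 h11 (by norm_num) (mul_nonneg hC0 (by linarith))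
            _ = C * (1 - θ * lam⁻¹) := by rw [h10]; ring
        have h12 : B * t ^ s ≤ C * (1 - θ * lam⁻¹) * t ^ s := mul_le_mul_of_nonneg_right h9 hts
        calc e t ≤ θ * e (2 * t) + B * t ^ 2 := h2
          _ ≤ θ * (C * (lam⁻¹ * t ^ s)) + C * (1 - θ * lam⁻¹) * t ^ s := by linarith
          _ = C * t ^ s := by ring
  obtain ⟨n, hn⟩ := pow_unbounded_of_one_lt (1 / 4 / t) (one_lt_two (α := ℝ))
  refine key n t ht ?_
  rw [div_lt_iff₀ ht] at hn
  linarith [mul_comm t ((2 : ℝ) ^ n)]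

end Vale.Agent.P247.H514
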