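import Mathlib

/-!
# P247, Stage 2, package ICUR: a finite measure on `ℂ` with integer values on squares is a finite
sum of Dirac masses.
-/

open Set MeasureTheory Filter Topology Metric

noncomputable section

namespace Vale.Agent.P247.H514

/-- the open square of centre `c` and half side `s` -/
def Sq (c : ℂ) (s : ℝ) : Set ℂ := {y | |(y - c).re| < s ∧ |(y - c).im| < s}

/-- the closed square -/
def CSq (c : ℂ) (s : ℝ) : Set ℂ := {y | |(y - c).re| ≤ s ∧ |(y - c).im| ≤ s}

lemma isOpen_Sq (c : ℂ) (s : ℝ) : IsOpen (Sq c s) := by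
  have h1 : Continuous fun y : ℂ => |(y - c).re| := by fun_prop
  have h2 : Continuous fun y : ℂ => |(y - c).im| := by fun_prop
  exact (isOpen_lt h1 continuous_const).inter (isOpen_lt h2 continuous_const)

lemma isClosed_CSq (c : ℂ) (s : ℝ) : IsClosed (CSq c s) := by
  have h1 : Continuous fun y : ℂ => |(y - c).re| := by fun_prop
  have h2 : Continuous fun y : ℂ => |(y - c).im| := by fun_prop
  exact (isClosed_le h1 continuous_const).inter (isClosed_le h2 continuous_const)

lemma Sq_subset_CSq (c : ℂ) (s : ℝ) : Sq c s ⊆ CSq c s := fun _ hy => ⟨hy.1.le, hy.2.le⟩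

lemma Sq_mono (c : ℂ) {s t : ℝ} (h : s ≤ t) : Sq c s ⊆ Sq c t :=
  fun _ hy => ⟨hy.1.trans_le h, hy.2.trans_le h⟩

lemma CSq_mono (c : ℂ) {s t : ℝ} (h : s ≤ t) : CSq c s ⊆ CSq c t :=
  fun _ hy => ⟨hy.1.trans h, hy.2.trans h⟩

lemma CSq_subset_ball (c : ℂ) {s r : ℝ} (hr : 2 * s < r) : CSq c s ⊆ ball c r := by
  intro y hy
  rw [mem_ball, dist_eq_norm]
  have h0 : 0 ≤ s := (abs_nonneg _).trans hy.1
  calc ‖y - c‖ ≤ |(y - c).re| + |(y - c).im| := Complex.norm_le_abs_re_add_abs_im _
    _ ≤ s + s := add_le_add hy.1 hy.2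
    _ < r := by linarith

lemma isCompact_CSq (c : ℂ) (s : ℝ) : IsCompact (CSq c s) := by
  apply Metric.isCompact_of_isClosed_isBounded (isClosed_CSq c s)
  exact (Metric.isBounded_ball (x := c) (r := 2 * s + 1)).subset
    (CSq_subset_ball c (by linarith))

lemma ball_subset_Sq (c : ℂ) (s : ℝ) : ball c s ⊆ Sq c s := by
  intro y hy
  rw [mem_ball, dist_eq_norm] at hy
  exact ⟨(Complex.abs_re_le_norm _).trans_lt hy, (Complex.abs_im_le_norm _).trans_lt hy⟩

/-- Around every point there are squares with centre in a dense set on which `T` has integer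
values and which shrink to the point. -/
lemma integer_nhds {T : Measure ℂ} [IsFiniteMeasure T] {V : Set ℂ} (hV : IsOpen V)
    {D : Set ℂ} (hD : Dense D)
    (h : ∀ c ∈ D, ∀ S, 0 < S → CSq c S ⊆ V →
      ∀ᵐ s ∂(volume.restrict (Ioo 0 S)), ∃ k : ℕ, T (Sq c s) = k) {p : ℂ} (hp : p ∈ V) :
    ∃ k : ℕ, T {p} = k ∧ ∃ O : Set ℂ, IsOpen O ∧ p ∈ O ∧ T (O \ {p}) = 0 := by
  obtain ⟨r, hr, hrV⟩ := Metric.isOpen_iff.1 hV p hp
  -- for every ε there is a good square inside the ball of radius `ε`
  have key : ∀ ε > 0, ∃ O : Set ℂ, IsOpen O ∧ p ∈ O ∧ O ⊆ ball p ε ∧ ∃ k : ℕ, T O = k := by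
    intro ε hε
    set δ := min ε r / 8 with hδ
    have hm : 0 < min ε r := lt_min hε hr
    have hδ0 : 0 < δ := by positivity
    obtain ⟨c, hcD, hc⟩ := hD.exists_dist_lt p hδ0
    have hsub : CSq c (2 * δ) ⊆ ball p (min ε r) := by
      intro y hy
      have h1 := CSq_subset_ball c (s := 2 * δ) (r := 5 * δ) (by linarith) hy
      rw [mem_ball] at h1 ⊢
      have := dist_triangle y c p
      rw [dist_comm c p] at this
      rw [hδ] at *
      linarith
    have hV' : CSq c (2 * δ) ⊆ V :=
      hsub.trans ((ball_subset_ball (min_le_right _ _)).trans hrV)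
    have hae := h c hcD (2 * δ) (by positivity) hV'
    -- pick s in (δ, 2δ)
    have hpos : (volume.restrict (Ioo 0 (2 * δ))) (Ioo δ (2 * δ)) ≠ 0 := by
      rw [Measure.restrict_apply measurableSet_Ioo,
        inter_eq_left.2 (Ioo_subset_Ioo_left hδ0.le), Real.volume_Ioo]
      simp only [ne_eq, ENNReal.ofReal_eq_zero, not_le]
      linarith
    obtain ⟨s, hs, k, hk⟩ : ∃ s ∈ Ioo δ (2 * δ), ∃ k : ℕ, T (Sq c s) = k := by
      by_contra hcon
      push Not at hcon
      apply hpos
      have : Ioo δ (2 * δ) ⊆ {s | ¬ ∃ k : ℕ, T (Sq c s) = k} := by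
        intro s hs hk
        obtain ⟨k, hk⟩ := hk
        exact hcon s hs k hk
      exact measure_mono_null this (ae_iff.1 hae)
    refine ⟨Sq c s, isOpen_Sq c s, ?_, ?_, k, hk⟩
    · apply ball_subset_Sq c s
      rw [mem_ball]
      exact hc.trans hs.1
    · exact (Sq_subset_CSq c s).trans
        ((CSq_mono c hs.2.le).trans (hsub.trans (ball_subset_ball (min_le_left _ _))))
  -- T (ball p ε) → T {p}
  have hlim : Tendsto (fun n : ℕ => T (ball p (1 / (n + 1 : ℝ)))) atTop (𝓝 (T {p})) := by
    have hInter : (⋂ n : ℕ, ball p (1 / (n + 1 : ℝ))) = {p} := by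
      ext y
      simp only [mem_iInter, mem_ball, mem_singleton_iff]
      constructor
      · intro hy
        by_contra hne
        have hd : 0 < dist y p := dist_pos.2 hne
        obtain ⟨n, hn⟩ := exists_nat_one_div_lt hd
        exact absurd (hy n) (not_lt.2 hn.le)
      · rintro rfl n
        rw [dist_self]
        positivity
    rw [← hInter]
    apply tendsto_measure_iInter_atTop
    · intro n
      exact measurableSet_ball.nullMeasurableSet
    · intro a b hab
      apply ball_subset_ball
      have : (a : ℝ) ≤ b := by exact_mod_cast hab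
      gcongr
    · exact ⟨0, measure_ne_top _ _⟩
  choose O hO1 hO2 hO3 k hk using fun n : ℕ => key (1 / (n + 1 : ℝ)) (by positivity)
  have hlim2 : Tendsto (fun n : ℕ => T (O n)) atTop (𝓝 (T {p})) := by
    apply tendsto_of_tendsto_of_tendsto_of_le_of_le tendsto_const_nhds hlim
    · intro n
      exact measure_mono (singleton_subset_iff.2 (hO2 n))
    · intro n
      exact measure_mono (hO3 n)
  have hpt : T {p} ≠ ⊤ := measure_ne_top _ _
  -- real version
  have hlim3 : Tendsto (fun n : ℕ => (k n : ℝ)) atTop (𝓝 (T {p}).toReal) := by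
    have := (ENNReal.tendsto_toReal hpt).comp hlim2
    refine this.congr ?_
    intro n
    simp [hk n]
  -- a convergent sequence of naturals is eventually constant
  have hev : ∀ᶠ n in atTop, |(k n : ℝ) - (T {p}).toReal| < 1 / 2 := by
    have := (Metric.tendsto_nhds.1 hlim3) (1 / 2) (by norm_num)
    simpa [Real.dist_eq] using this
  obtain ⟨N, hN⟩ := eventually_atTop.1 hev
  have hconst : ∀ n ≥ N, k n = k N := by
    intro n hn
    have h1 := hN n hn
    have h2 := hN N le_rfl
    have h3 : |(k n : ℝ) - (k N : ℝ)| < 1 := by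
      calc |(k n : ℝ) - (k N : ℝ)| = |((k n : ℝ) - (T {p}).toReal) - ((k N : ℝ) - (T {p}).toReal)| := by
            ring_nf
        _ ≤ |(k n : ℝ) - (T {p}).toReal| + |(k N : ℝ) - (T {p}).toReal| := abs_sub _ _
        _ < 1 := by linarith
    have h4 : |((k n : ℤ) : ℝ) - ((k N : ℤ) : ℝ)| < 1 := by simpa using h3
    have h5 : |(k n : ℤ) - (k N : ℤ)| < 1 := by exact_mod_cast h4
    have h6 := Int.abs_lt_one_iff.1 h5
    omega
  have hval : T {p} = k N := by
    have h1 : Tendsto (fun n : ℕ => T (O n)) atTop (𝓝 (k N : ENNReal)) := by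
      apply tendsto_const_nhds.congr'
      filter_upwards [eventually_ge_atTop N] with n hn
      rw [hk n, hconst n hn]
    exact tendsto_nhds_unique hlim2 h1
  refine ⟨k N, hval, O N, hO1 N, hO2 N, ?_⟩
  rw [measure_sdiff (singleton_subset_iff.2 (hO2 N)) (measurableSet_singleton p).nullMeasurableSet hpt,
    hk N, hval, tsub_self]

/-- A finite measure carried by an open set which has integer values on almost all squares with
centre in a dense set is a finite sum of Dirac masses. -/
theorem integer_measure {T : Measure ℂ} [IsFiniteMeasure T] {V : Set ℂ} (hV : IsOpen V)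
    (hTV : T Vᶜ = 0) {D : Set ℂ} (hD : Dense D)
    (h : ∀ c ∈ D, ∀ S, 0 < S → CSq c S ⊆ V →
      ∀ᵐ s ∂(volume.restrict (Ioo 0 S)), ∃ k : ℕ, T (Sq c s) = k) :
    ∃ P : Multiset ℂ, (∀ p ∈ P, p ∈ V) ∧ T = (P.map Measure.dirac).sum := by
  classical
  have hloc := fun p (hp : p ∈ V) => integer_nhds hV hD h hp
  choose! k hk O hO1 hO2 hO3 using hloc
  set A : Set ℂ := {p | p ∈ V ∧ T {p} ≠ 0} with hA
  -- A is finite
  have hAfin : A.Finite := by
    have h1 : ∀ p ∈ A, (1 : ENNReal) ≤ T {p} := by
      intro p hp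
      have h2 := hk p hp.1
      rw [h2]
      have h3 := hp.2
      rw [h2] at h3
      have h4 : k p ≠ 0 := by
        intro h5
        rw [h5] at h3
        exact h3 (by simp)
      exact_mod_cast Nat.one_le_iff_ne_zero.2 h4
    by_contra hinf
    have hinf' : A.Infinite := hinf
    have htop : ∀ n : ℕ, (n : ENNReal) ≤ T univ := by
      intro n
      obtain ⟨B, hBA, hBn⟩ := hinf'.exists_subset_card_eq n
      calc (n : ENNReal) = ∑ p ∈ B, (1 : ENNReal) := by simp [hBn]
        _ ≤ ∑ p ∈ B, T {p} := Finset.sum_le_sum fun p hp => h1 p (hBA hp)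
        _ = T (B : Set ℂ) := by
            rw [← measure_biUnion_finset]
            · congr 1
              ext y
              simp
            · intro a _ b _ hab
              simpa using hab
            · intro a _
              exact measurableSet_singleton a
        _ ≤ T univ := measure_mono (subset_univ _)
    have hne : T univ ≠ ⊤ := measure_ne_top _ _
    obtain ⟨n, hn⟩ := ENNReal.exists_nat_gt hne
    exact absurd (htop n) (not_le.2 hn)
  -- T vanishes off A
  have hVA : T (V \ A) = 0 := by
    obtain ⟨t, htV, htc, hcov⟩ := TopologicalSpace.countable_cover_nhdsWithin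
      (f := O) (s := V) (fun x hx => mem_nhdsWithin_of_mem_nhds ((hO1 x hx).mem_nhds (hO2 x hx)))
    have hsub : V \ A ⊆ ⋃ x ∈ t, (O x \ A) := by
      intro y hy
      obtain ⟨x, hx, hyx⟩ := mem_iUnion₂.1 (hcov hy.1)
      exact mem_iUnion₂.2 ⟨x, hx, hyx, hy.2⟩
    refine measure_mono_null hsub ((measure_biUnion_null_iff htc).2 ?_)
    intro x hx
    have hxV := htV hx
    by_cases hxA : x ∈ A
    · refine measure_mono_null ?_ (hO3 x hxV)
      intro y hy
      refine ⟨hy.1, ?_⟩
      rintro rfl
      exact hy.2 hxA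
    · have hx0 : T {x} = 0 := by
        by_contra h0
        exact hxA ⟨hxV, h0⟩
      refine measure_mono_null (t := (O x \ {x}) ∪ {x}) ?_ ?_
      · intro y hy
        by_cases hyx : y = x
        · right; exact hyx
        · left; exact ⟨hy.1, hyx⟩
      · exact measure_union_null (hO3 x hxV) hx0
  have hAc : T Aᶜ = 0 := by
    refine measure_mono_null (t := Vᶜ ∪ (V \ A)) ?_ (measure_union_null hTV hVA)
    intro y hy
    by_cases hyV : y ∈ V
    · right; exact ⟨hyV, hy⟩
    · left; exact hyV
  set B := hAfin.toFinset with hB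
  have hsum : T = ∑ p ∈ B, (k p) • Measure.dirac p := by
    ext s hs
    rw [Measure.finsetSum_apply]
    have h1 : T s = T (s ∩ A) := by
      have := measure_inter_add_sdiff s hAfin.measurableSet (μ := T)
      rw [← this]
      have h2 : T (s \ A) = 0 := measure_mono_null (fun y hy => hy.2) hAc
      rw [h2, add_zero]
    have h3 : (s ∩ A) = ⋃ p ∈ B.filter (· ∈ s), ({p} : Set ℂ) := by
      ext y
      simp [hB, and_comm]
    rw [h1, h3, measure_biUnion_finset]
    · rw [Finset.sum_filter]
      apply Finset.sum_congr rfl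
      intro p hp
      have hpA : p ∈ A := by simpa [hB] using hp
      rw [Measure.smul_apply, Measure.dirac_apply' _ hs, hk p hpA.1]
      by_cases hps : p ∈ s
      · simp [hps]
      · simp [hps]
    · intro a _ b _ hab
      simpa using hab
    · intro a _
      exact measurableSet_singleton a
  refine ⟨∑ p ∈ B, Multiset.replicate (k p) p, ?_, ?_⟩
  · intro p hp
    rw [Multiset.mem_sum] at hp
    obtain ⟨q, hq, hpq⟩ := hp
    rw [Multiset.eq_of_mem_replicate hpq]
    have : q ∈ A := by simpa [hB] using hq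
    exact this.1
  · rw [hsum]
    have : ∀ C : Finset ℂ, ∑ p ∈ C, (k p) • Measure.dirac p =
        ((∑ p ∈ C, Multiset.replicate (k p) p).map (Measure.dirac : ℂ → Measure ℂ)).sum := by
      intro C
      induction C using Finset.induction_on with
      | empty => simp
      | insert a C ha ih =>
        rw [Finset.sum_insert ha, Finset.sum_insert ha, Multiset.map_add, Multiset.sum_add, ih]
        simp
    exact this B

end Vale.Agent.P247.H514
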