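import Mathlib

/-!
# P247, Stage 2, package ICUR: weak convergence + `W^{1,1}` bound ⇒ Cauchy in `L¹_loc`.
-/

open Set MeasureTheory Filter Topology Metric
open scoped ENNReal

noncomputable section

namespace Vale.Agent.P247.H514

/-- The normalised bump of radius `r`. -/
def rho (r : ℝ) (hr : 0 < r) : ℂ → ℝ :=
  (⟨r / 2, r, by positivity, by linarith⟩ : ContDiffBump (0 : ℂ)).normed volume

lemma rho_cont (r : ℝ) (hr : 0 < r) : Continuous (rho r hr) := ContDiffBump.continuous_normed _

lemma rho_nonneg (r : ℝ) (hr : 0 < r) (x : ℂ) : 0 ≤ rho r hr x := ContDiffBump.nonneg_normed _ _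

lemma rho_int (r : ℝ) (hr : 0 < r) : ∫ x, rho r hr x = 1 := ContDiffBump.integral_normed _

lemma rho_supp (r : ℝ) (hr : 0 < r) : HasCompactSupport (rho r hr) :=
  ContDiffBump.hasCompactSupport_normed _

lemma rho_tsupp (r : ℝ) (hr : 0 < r) : tsupport (rho r hr) = closedBall 0 r :=
  ContDiffBump.tsupport_normed_eq _

lemma rho_zero (r : ℝ) (hr : 0 < r) {x : ℂ} (hx : r < ‖x‖) : rho r hr x = 0 := by
  apply image_eq_zero_of_notMem_tsupport
  rw [rho_tsupp, mem_closedBall, dist_zero_right]
  exact not_le.2 hx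

lemma rho_bdd (r : ℝ) (hr : 0 < r) : ∃ M, 0 ≤ M ∧ ∀ x, rho r hr x ≤ M := by
  obtain ⟨M, hM⟩ := (rho_cont r hr).bounded_above_of_compact_support (rho_supp r hr)
  refine ⟨M, (norm_nonneg _).trans (hM 0), fun x => ?_⟩
  exact (le_abs_self _).trans (hM x)

/-- the mollification of `u` at `z` -/
def mol (r : ℝ) (hr : 0 < r) (u : ℂ → ℝ) (z : ℂ) : ℝ := ∫ w, rho r hr (w - z) * u w

lemma mol_eq (r : ℝ) (hr : 0 < r) (u : ℂ → ℝ) (z : ℂ) :
    mol r hr u z = ∫ h, rho r hr h * u (z + h) := by
  rw [mol, ← integral_add_left_eq_self (fun w => rho r hr (w - z) * u w) z]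
  simp

/-- Translation estimate for the mollification. -/
lemma mol_sub_le {U : Set ℂ} {u : ℂ → ℝ} (hum : Measurable u) {g : ℂ → ℝ≥0∞} (hg : Measurable g)
    {C : ℝ≥0∞} (hgC : ∫⁻ z in U, g z ≤ C)
    (hui : ∀ z ∈ U, ‖u z‖ₑ ≤ g z)
    (hd : ∀ z h : ℂ, (∀ t ∈ Icc (0 : ℝ) 1, z + (t : ℂ) * h ∈ U) →
      ‖u (z + h) - u z‖ₑ ≤ ‖h‖ₑ * ∫⁻ t in Ioc (0 : ℝ) 1, g (z + (t : ℂ) * h))
    {K : Set ℂ} (hK : IsCompact K) {r : ℝ} (hr : 0 < r) (hKU : cthickening r K ⊆ U)
    (hC : C ≠ ⊤) (hU : IsOpen U) :
    ∫⁻ z in K, ‖mol r hr u z - u z‖ₑ ≤ ENNReal.ofReal r * C := by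
  have hKm : MeasurableSet K := hK.measurableSet
  -- points of the form z + t h are in U
  have hin : ∀ z ∈ K, ∀ h : ℂ, ‖h‖ ≤ r → ∀ t ∈ Icc (0 : ℝ) 1, z + (t : ℂ) * h ∈ U := by
    intro z hz h hh t ht
    apply hKU
    apply mem_cthickening_of_dist_le _ z _ _ hz
    rw [dist_eq_norm, add_sub_cancel_left, norm_mul, Complex.norm_real, Real.norm_eq_abs,
      abs_of_nonneg ht.1]
    calc t * ‖h‖ ≤ 1 * r := mul_le_mul ht.2 hh (norm_nonneg _) zero_le_one
      _ = r := one_mul r
  -- integrability of u on U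
  have huint : IntegrableOn u U := by
    refine ⟨hum.aestronglyMeasurable, ?_⟩
    rw [hasFiniteIntegral_iff_enorm]
    refine lt_of_le_of_lt ?_ (lt_top_iff_ne_top.2 hC)
    refine (lintegral_mono_ae ?_).trans hgC
    filter_upwards [ae_restrict_mem hU.measurableSet] with z hz
    exact hui z hz
  have hpt : ∀ z ∈ K, ‖mol r hr u z - u z‖ₑ ≤
      ∫⁻ h in closedBall (0 : ℂ) r, ENNReal.ofReal (rho r hr h) *
        (ENNReal.ofReal r * ∫⁻ t in Ioc (0 : ℝ) 1, g (z + (t : ℂ) * h)) := by
    intro z hz
    have h0 : ∀ h, rho r hr h * u (z + h) =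
        (closedBall (0 : ℂ) r).indicator (fun h => rho r hr h * u (z + h)) h := by
      intro h
      by_cases hh : h ∈ closedBall (0 : ℂ) r
      · rw [indicator_of_mem hh]
      · rw [indicator_of_notMem hh, rho_zero r hr, zero_mul]
        simpa using hh
    have hint1 : IntegrableOn (fun h => rho r hr h * u (z + h)) (closedBall (0 : ℂ) r) := by
      obtain ⟨M, hM0, hM⟩ := rho_bdd r hr
      have h1 : IntegrableOn (fun h => u (z + h)) (closedBall (0 : ℂ) r) := by
        have h2 : IntegrableOn u (closedBall z r) := huint.mono_set (by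
          intro w hw
          have := hin z hz (w - z) (by simpa [dist_eq_norm] using hw) 1 (by simp)
          simpa using this)
        have h3 : (fun h => z + h) ⁻¹' (closedBall z r) = closedBall (0 : ℂ) r := by
          ext h; simp [dist_eq_norm]
        rw [← h3]
        exact ((measurePreserving_add_left volume z).integrableOn_comp_preimage
          (measurableEmbedding_addLeft z)).2 h2
      refine Integrable.bdd_mul (c := M) h1 (rho_cont r hr).aestronglyMeasurable ?_
      filter_upwards with h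
      rw [Real.norm_eq_abs, abs_of_nonneg (rho_nonneg r hr h)]
      exact hM h
    have hmol : mol r hr u z = ∫ h in closedBall (0 : ℂ) r, rho r hr h * u (z + h) := by
      rw [mol_eq, ← integral_indicator measurableSet_closedBall]
      exact integral_congr_ae (Eventually.of_forall h0)
    have hrho : ∫ h in closedBall (0 : ℂ) r, rho r hr h = 1 := by
      rw [← rho_int r hr, ← integral_indicator measurableSet_closedBall]
      apply integral_congr_ae
      filter_upwards with h
      by_cases hh : h ∈ closedBall (0 : ℂ) r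
      · rw [indicator_of_mem hh]
      · rw [indicator_of_notMem hh, rho_zero r hr]
        simpa using hh
    have hrint : IntegrableOn (rho r hr) (closedBall (0 : ℂ) r) :=
      ((rho_cont r hr).integrable_of_hasCompactSupport (rho_supp r hr)).integrableOn
    have hdiff : mol r hr u z - u z =
        ∫ h in closedBall (0 : ℂ) r, rho r hr h * (u (z + h) - u z) := by
      have h1 : ∀ h, rho r hr h * (u (z + h) - u z) = rho r hr h * u (z + h) - rho r hr h * u z :=
        fun h => by ring
      simp_rw [h1]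
      rw [integral_sub hint1 (hrint.mul_const _), integral_mul_const, hrho, one_mul, hmol]
    rw [hdiff]
    refine (enorm_integral_le_lintegral_enorm _).trans ?_
    apply lintegral_mono_ae
    filter_upwards [ae_restrict_mem measurableSet_closedBall] with h hh
    have hh' : ‖h‖ ≤ r := by simpa using hh
    rw [enorm_mul, Real.enorm_eq_ofReal (rho_nonneg r hr h)]
    gcongr
    refine (hd z h (hin z hz h hh')).trans ?_
    gcongr
    rw [← ofReal_norm]
    exact ENNReal.ofReal_le_ofReal hh'
  have hmeas3 : Measurable fun q : (ℂ × ℂ) × ℝ => g (q.1.1 + (q.2 : ℂ) * q.1.2) := by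
    apply hg.comp
    fun_prop
  have hmeas2 : Measurable fun q : ℂ × ℂ => ∫⁻ t in Ioc (0 : ℝ) 1, g (q.1 + (t : ℂ) * q.2) :=
    hmeas3.lintegral_prod_right'
  calc ∫⁻ z in K, ‖mol r hr u z - u z‖ₑ
      ≤ ∫⁻ z in K, ∫⁻ h in closedBall (0 : ℂ) r, ENNReal.ofReal (rho r hr h) *
        (ENNReal.ofReal r * ∫⁻ t in Ioc (0 : ℝ) 1, g (z + (t : ℂ) * h)) := by
        apply lintegral_mono_ae
        filter_upwards [ae_restrict_mem hKm] with z hz
        exact hpt z hz
    _ = ∫⁻ h in closedBall (0 : ℂ) r, ∫⁻ z in K, ENNReal.ofReal (rho r hr h) *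
        (ENNReal.ofReal r * ∫⁻ t in Ioc (0 : ℝ) 1, g (z + (t : ℂ) * h)) := by
        rw [lintegral_lintegral_swap]
        apply Measurable.aemeasurable
        apply Measurable.mul
        · exact ((rho_cont r hr).measurable.comp measurable_snd).ennreal_ofReal
        · exact measurable_const.mul hmeas2
    _ = ∫⁻ h in closedBall (0 : ℂ) r, ENNReal.ofReal (rho r hr h) *
        (ENNReal.ofReal r * ∫⁻ z in K, ∫⁻ t in Ioc (0 : ℝ) 1, g (z + (t : ℂ) * h)) := by
        apply lintegral_congr
        intro h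
        have hm : Measurable fun z : ℂ => ∫⁻ t in Ioc (0 : ℝ) 1, g (z + (t : ℂ) * h) :=
          hmeas2.comp (measurable_id.prodMk measurable_const)
        have hm2 : Measurable fun z : ℂ => ENNReal.ofReal r *
            ∫⁻ t in Ioc (0 : ℝ) 1, g (z + (t : ℂ) * h) := hm.const_mul (ENNReal.ofReal r)
        rw [lintegral_const_mul (ENNReal.ofReal (rho r hr h)) hm2, lintegral_const_mul _ hm]
    _ ≤ ∫⁻ h in closedBall (0 : ℂ) r, ENNReal.ofReal (rho r hr h) *
        (ENNReal.ofReal r * C) := by
        apply lintegral_mono_ae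
        filter_upwards [ae_restrict_mem measurableSet_closedBall] with h hh
        have hh' : ‖h‖ ≤ r := by simpa using hh
        gcongr
        rw [lintegral_lintegral_swap]
        · calc ∫⁻ t in Ioc (0 : ℝ) 1, ∫⁻ z in K, g (z + (t : ℂ) * h)
              ≤ ∫⁻ t in Ioc (0 : ℝ) 1, C := by
                apply lintegral_mono_ae
                filter_upwards [ae_restrict_mem measurableSet_Ioc] with t ht
                have h5 : ∫⁻ z in K, g (z + (t : ℂ) * h) ≤
                    ∫⁻ z in (fun z => z + (t : ℂ) * h) ⁻¹' U, g (z + (t : ℂ) * h) := by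
                  apply lintegral_mono_set
                  intro z hz
                  exact hin z hz h hh' t ⟨ht.1.le, ht.2⟩
                refine h5.trans (le_of_eq_of_le ?_ hgC)
                exact (measurePreserving_add_right volume ((t : ℂ) * h)).setLIntegral_comp_preimage
                  hU.measurableSet hg
            _ = C := by simp
        · apply Measurable.aemeasurable
          apply hg.comp
          fun_prop
    _ = (∫⁻ h in closedBall (0 : ℂ) r, ENNReal.ofReal (rho r hr h)) *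
        (ENNReal.ofReal r * C) := by
        rw [lintegral_mul_const _ (rho_cont r hr).measurable.ennreal_ofReal]
    _ ≤ 1 * (ENNReal.ofReal r * C) := by
        gcongr
        calc ∫⁻ h in closedBall (0 : ℂ) r, ENNReal.ofReal (rho r hr h)
            ≤ ∫⁻ h, ENNReal.ofReal (rho r hr h) := setLIntegral_le_lintegral _ _
          _ = ENNReal.ofReal (∫ h, rho r hr h) := by
              rw [ofReal_integral_eq_lintegral_ofReal
                ((rho_cont r hr).integrable_of_hasCompactSupport (rho_supp r hr))]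
              exact Eventually.of_forall (rho_nonneg r hr)
          _ = 1 := by rw [rho_int, ENNReal.ofReal_one]
    _ = ENNReal.ofReal r * C := one_mul _


lemma mol_measurable (r : ℝ) (hr : 0 < r) {u : ℂ → ℝ} (hu : Measurable u) :
    Measurable (mol r hr u) := by
  have h1 : StronglyMeasurable (Function.uncurry fun z w : ℂ => rho r hr (w - z) * u w) := by
    apply Measurable.stronglyMeasurable
    apply Measurable.mul
    · exact (rho_cont r hr).measurable.comp (measurable_snd.sub measurable_fst)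
    · exact hu.comp measurable_snd
  exact h1.integral_prod_right.measurable

/-- Weak convergence and the translation estimate give convergence in `L¹(K)`. -/
theorem kol {U : Set ℂ} (hU : IsOpen U) {u : ℕ → ℂ → ℝ} (hum : ∀ n, Measurable (u n))
    {g : ℕ → ℂ → ℝ≥0∞} (hg : ∀ n, Measurable (g n))
    {C : ℝ≥0∞} (hC : C ≠ ⊤) (hgC : ∀ n, ∫⁻ z in U, g n z ≤ C)
    (hui : ∀ n, ∀ z ∈ U, ‖u n z‖ₑ ≤ g n z)
    (hd : ∀ n, ∀ z h : ℂ, (∀ t ∈ Icc (0 : ℝ) 1, z + (t : ℂ) * h ∈ U) →
      ‖u n (z + h) - u n z‖ₑ ≤ ‖h‖ₑ * ∫⁻ t in Ioc (0 : ℝ) 1, g n (z + (t : ℂ) * h))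
    (hw : ∀ θ : ℂ → ℝ, Continuous θ → HasCompactSupport θ → tsupport θ ⊆ U →
      ∃ l, Tendsto (fun n => ∫ z in U, θ z * u n z) atTop (𝓝 l))
    {K : Set ℂ} (hK : IsCompact K) (hKU : K ⊆ U) :
    ∃ v : ℂ → ℝ, IntegrableOn v K ∧
      Tendsto (fun n => ∫⁻ z in K, ‖u n z - v z‖ₑ) atTop (𝓝 0) := by
  have hKm : MeasurableSet K := hK.measurableSet
  have huint : ∀ n, IntegrableOn (u n) U := by
    intro n
    refine ⟨(hum n).aestronglyMeasurable, ?_⟩
    rw [hasFiniteIntegral_iff_enorm]
    refine lt_of_le_of_lt ?_ (lt_top_iff_ne_top.2 hC)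
    refine (lintegral_mono_ae ?_).trans (hgC n)
    filter_upwards [ae_restrict_mem hU.measurableSet] with z hz
    exact hui n z hz
  -- the mollifications converge in L¹(K)
  have hmol : ∀ r : ℝ, ∀ hr : 0 < r, cthickening r K ⊆ U →
      ∃ l : ℂ → ℝ, Tendsto (fun n => ∫⁻ z in K, ENNReal.ofReal ‖mol r hr (u n) z - l z‖)
        atTop (𝓝 0) ∧ AEStronglyMeasurable l (volume.restrict K) := by
    intro r hr hrU
    obtain ⟨M, hM0, hM⟩ := rho_bdd r hr
    have hball : ∀ z ∈ K, closedBall z r ⊆ U := fun z hz =>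
      (closedBall_subset_cthickening hz r).trans hrU
    have hzero : ∀ z w : ℂ, w ∉ closedBall z r → rho r hr (w - z) = 0 := by
      intro z w hw
      apply rho_zero r hr
      simpa [dist_eq_norm] using hw
    have hmolU : ∀ n, ∀ z ∈ K, mol r hr (u n) z = ∫ w in U, rho r hr (w - z) * u n w := by
      intro n z hz
      rw [mol, ← integral_indicator hU.measurableSet]
      apply integral_congr_ae
      filter_upwards with w
      by_cases hw : w ∈ U
      · rw [indicator_of_mem hw]
      · rw [indicator_of_notMem hw, hzero z w (fun h => hw (hball z hz h)), zero_mul]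
    have hconv : ∀ z ∈ K, ∃ l, Tendsto (fun n => mol r hr (u n) z) atTop (𝓝 l) := by
      intro z hz
      simp_rw [fun n => hmolU n z hz]
      apply hw
      · exact (rho_cont r hr).comp (continuous_id.sub continuous_const)
      · apply HasCompactSupport.intro (isCompact_closedBall z r)
        intro w hw
        exact hzero z w hw
      · refine (closure_minimal ?_ isClosed_closedBall).trans (hball z hz)
        intro w hw
        by_contra h
        exact hw (hzero z w h)
    classical
    choose! l hl using hconv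
    have hbd : ∀ n, ∀ z ∈ K, ‖mol r hr (u n) z‖ ≤ M * C.toReal := by
      intro n z hz
      have h1 : ‖mol r hr (u n) z‖ₑ ≤ ENNReal.ofReal M * C := by
        rw [hmolU n z hz]
        refine (enorm_integral_le_lintegral_enorm _).trans ?_
        calc ∫⁻ w in U, ‖rho r hr (w - z) * u n w‖ₑ
            ≤ ∫⁻ w in U, ENNReal.ofReal M * g n w := by
              apply lintegral_mono_ae
              filter_upwards [ae_restrict_mem hU.measurableSet] with w hw
              rw [enorm_mul, Real.enorm_eq_ofReal (rho_nonneg r hr _)]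
              gcongr
              · exact hM _
              · exact hui n w hw
          _ = ENNReal.ofReal M * ∫⁻ w in U, g n w := by rw [lintegral_const_mul _ (hg n)]
          _ ≤ ENNReal.ofReal M * C := by
              gcongr
              exact hgC n
      have h2 : ENNReal.ofReal M * C = ENNReal.ofReal (M * C.toReal) := by
        rw [ENNReal.ofReal_mul hM0, ENNReal.ofReal_toReal hC]
      rw [h2, ← ofReal_norm] at h1
      exact (ENNReal.ofReal_le_ofReal_iff (by positivity)).1 h1
    have hae : ∀ᵐ z ∂(volume.restrict K), Tendsto (fun n => mol r hr (u n) z) atTop (𝓝 (l z)) := by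
      filter_upwards [ae_restrict_mem hKm] with z hz
      exact hl z hz
    refine ⟨l, ?_, ?_⟩
    · apply tendsto_lintegral_norm_of_dominated_convergence (bound := fun _ => M * C.toReal)
      · intro n
        exact (mol_measurable r hr (hum n)).aestronglyMeasurable
      · have : IsFiniteMeasure (volume.restrict K) := ⟨by
          rw [Measure.restrict_apply_univ]; exact hK.measure_lt_top⟩
        exact (integrable_const _).hasFiniteIntegral
      · intro n
        filter_upwards [ae_restrict_mem hKm] with z hz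
        exact hbd n z hz
      · exact hae
    · exact aestronglyMeasurable_of_tendsto_ae atTop
        (fun n => (mol_measurable r hr (hum n)).aestronglyMeasurable) hae
  -- L¹ Cauchy
  have hcau : ∀ ε : ℝ≥0∞, 0 < ε → ∃ N, ∀ m, N ≤ m → ∀ n, N ≤ n →
      ∫⁻ z in K, ‖u m z - u n z‖ₑ < ε := by
    intro ε hε
    obtain ⟨δ, hδ, hδU⟩ := hK.exists_cthickening_subset_open hU hKU
    obtain ⟨e, he, heε⟩ : ∃ e : ℝ≥0∞, 0 < e ∧ e + e + (e + e) < ε := by
      obtain ⟨e1, he1, h1⟩ := exists_between hε
      refine ⟨e1 / 4, ENNReal.div_pos he1.ne' (by simp), ?_⟩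
      have : e1 / 4 + e1 / 4 + (e1 / 4 + e1 / 4) = e1 := by
        have h4 : e1 / 4 + e1 / 4 + (e1 / 4 + e1 / 4) = 4 * (e1 / 4) := by ring
        rw [h4]
        exact ENNReal.mul_div_cancel (by simp) (by simp)
      rw [this]
      exact h1
    obtain ⟨r, hr, hrδ, hrC⟩ : ∃ r : ℝ, 0 < r ∧ r ≤ δ ∧ ENNReal.ofReal r * C ≤ e := by
      have htend : Tendsto (fun r : ℝ => ENNReal.ofReal r * C) (𝓝[>] 0) (𝓝 0) := by
        have h1 : Tendsto (fun r : ℝ => ENNReal.ofReal r * C) (𝓝 0) (𝓝 (ENNReal.ofReal 0 * C)) :=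
          ENNReal.Tendsto.mul_const (ENNReal.tendsto_ofReal tendsto_id) (Or.inr hC)
        rw [ENNReal.ofReal_zero, zero_mul] at h1
        exact h1.mono_left nhdsWithin_le_nhds
      have h2 : ∀ᶠ r : ℝ in 𝓝[>] 0, ENNReal.ofReal r * C < e := htend.eventually_lt_const he
      have h3 : ∀ᶠ r : ℝ in 𝓝[>] 0, r < δ :=
        (eventually_lt_nhds hδ).filter_mono nhdsWithin_le_nhds
      obtain ⟨r, ⟨h4, h5⟩, h6⟩ := ((h2.and h3).and self_mem_nhdsWithin).exists
      exact ⟨r, h6, h5.le, h4.le⟩
    have hrU : cthickening r K ⊆ U := (cthickening_mono hrδ K).trans hδU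
    obtain ⟨l, hl, hlm⟩ := hmol r hr hrU
    obtain ⟨N, hN⟩ := (hl.eventually_lt_const he).exists_forall_of_atTop
    refine ⟨N, fun m hm n hn => lt_of_le_of_lt ?_ heε⟩
    have hml : ∀ n, AEMeasurable (fun z => ‖mol r hr (u n) z - l z‖ₑ) (volume.restrict K) :=
      fun n => ((mol_measurable r hr (hum n)).aestronglyMeasurable.sub hlm).enorm
    have hmu : ∀ n, Measurable (fun z => ‖mol r hr (u n) z - u n z‖ₑ) :=
      fun n => ((mol_measurable r hr (hum n)).sub (hum n)).enorm
    have hA : ∀ n, ∫⁻ z in K, ‖mol r hr (u n) z - u n z‖ₑ ≤ e := fun n =>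
      (mol_sub_le (hum n) (hg n) (hgC n) (hui n) (hd n) hK hr hrU hC hU).trans hrC
    have hB : ∀ n, N ≤ n → ∫⁻ z in K, ‖mol r hr (u n) z - l z‖ₑ ≤ e := by
      intro n hn
      have := (hN n hn).le
      simpa only [ofReal_norm] using this
    calc ∫⁻ z in K, ‖u m z - u n z‖ₑ
        ≤ ∫⁻ z in K, (‖mol r hr (u m) z - u m z‖ₑ + ‖mol r hr (u n) z - u n z‖ₑ) +
            (‖mol r hr (u m) z - l z‖ₑ + ‖mol r hr (u n) z - l z‖ₑ) := by
          apply lintegral_mono
          intro z
          have h1 : u m z - u n z = (-(mol r hr (u m) z - u m z) + (mol r hr (u n) z - u n z)) +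
            ((mol r hr (u m) z - l z) + -(mol r hr (u n) z - l z)) := by ring
          calc ‖u m z - u n z‖ₑ = ‖(-(mol r hr (u m) z - u m z) + (mol r hr (u n) z - u n z)) +
            ((mol r hr (u m) z - l z) + -(mol r hr (u n) z - l z))‖ₑ := by rw [← h1]
            _ ≤ _ := by
              refine (enorm_add_le _ _).trans ?_
              refine add_le_add ((enorm_add_le _ _).trans ?_) ((enorm_add_le _ _).trans ?_)
              · rw [enorm_neg]
              · rw [enorm_neg]
      _ = (∫⁻ z in K, (‖mol r hr (u m) z - u m z‖ₑ + ‖mol r hr (u n) z - u n z‖ₑ)) +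
            ∫⁻ z in K, (‖mol r hr (u m) z - l z‖ₑ + ‖mol r hr (u n) z - l z‖ₑ) := by
          have h7 : Measurable fun z => ‖mol r hr (u m) z - u m z‖ₑ +
              ‖mol r hr (u n) z - u n z‖ₑ := (hmu m).add (hmu n)
          rw [lintegral_add_left h7]
      _ = (∫⁻ z in K, ‖mol r hr (u m) z - u m z‖ₑ) + (∫⁻ z in K, ‖mol r hr (u n) z - u n z‖ₑ) +
            ((∫⁻ z in K, ‖mol r hr (u m) z - l z‖ₑ) +
              ∫⁻ z in K, ‖mol r hr (u n) z - l z‖ₑ) := by
          rw [lintegral_add_left (hmu m), lintegral_add_left' (hml m)]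
      _ ≤ e + e + (e + e) := by
          gcongr
          · exact hA m
          · exact hA n
          · exact hB m hm
          · exact hB n hn
  -- conclusion by completeness
  have hmem : ∀ n, MemLp (u n) 1 (volume.restrict K) := fun n =>
    memLp_one_iff_integrable.2 ((huint n).mono_set hKU)
  have hcs : CauchySeq fun n => (hmem n).toLp (u n) := by
    rw [EMetric.cauchySeq_iff]
    intro ε hε
    obtain ⟨N, hN⟩ := hcau ε hε
    refine ⟨N, fun m hm n hn => ?_⟩
    rw [Lp.edist_toLp_toLp, eLpNorm_one_eq_lintegral_enorm]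
    exact hN m hm n hn
  obtain ⟨v, hv⟩ := cauchySeq_tendsto_of_complete hcs
  refine ⟨v, memLp_one_iff_integrable.1 (Lp.memLp v), ?_⟩
  rw [← Lp.toLp_coeFn v (Lp.memLp v), Lp.tendsto_Lp_iff_tendsto_eLpNorm''] at hv
  simp_rw [eLpNorm_one_eq_lintegral_enorm] at hv
  exact hv

end Vale.Agent.P247.H514
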