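import Vale.Agent.P247.H514.IntMeas

/-!
# P247, Stage 2, package ICUR-INT: interface of the abstract slice theorem.

`SliceData U V τ F e A B C`: the hypotheses (all of them about the two-dimensional slices of a
sequence of closed two-forms on `U ×ˢ V`, whose `dy₁ ∧ dy₂` components `F n` converge weakly to the
measure `τ`).  `Slice_statement`: for almost every `z ∈ U` the slice of `τ` is a finite sum of
Dirac masses.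
-/

open Set MeasureTheory Filter Topology Metric
open scoped ENNReal

noncomputable section

namespace Vale.Agent.P247.H514

/-- The integral of `e` over the boundary of the square of centre `c` and half side `s`. -/
def bdE (e : ℂ → ℝ) (c : ℂ) (s : ℝ) : ℝ :=
  (∫ t in (-s)..s, e (c + (t + s * Complex.I))) + (∫ t in (-s)..s, e (c + (t - s * Complex.I))) +
  (∫ t in (-s)..s, e (c + (s + t * Complex.I))) + (∫ t in (-s)..s, e (c + (-s + t * Complex.I)))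

/-- The hypotheses of the slice theorem. `F n` is the `dy₁ ∧ dy₂` component of a closed two-form
`ω n` on `U ×ˢ V`, `A n v = ω n (v, 0) (0, i)`, `B n v = - ω n (v, 0) (0, 1)`. -/
structure SliceData (U V : Set ℂ) (τ : Measure (ℂ × ℂ)) (F e : ℕ → ℂ × ℂ → ℝ)
    (A B : ℕ → ℂ → ℂ × ℂ → ℝ) (C : ℝ≥0∞) : Prop where
  hU : IsOpen U
  hV : IsOpen V
  hτ : τ (U ×ˢ V)ᶜ = 0
  hC : C ≠ ⊤
  cF : ∀ n, ContDiffOn ℝ 1 (F n) (U ×ˢ V)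
  cA : ∀ n v, ContDiffOn ℝ 1 (A n v) (U ×ˢ V)
  cB : ∀ n v, ContDiffOn ℝ 1 (B n v) (U ×ˢ V)
  ce : ∀ n, ContinuousOn (e n) (U ×ˢ V)
  eC : ∀ n, ∫⁻ p in U ×ˢ V, ENNReal.ofReal (e n p) ≤ C
  Fe : ∀ n, ∀ p ∈ U ×ˢ V, |F n p| ≤ e n p
  Ae : ∀ n v, ∀ p ∈ U ×ˢ V, |A n v p| ≤ ‖v‖ * e n p
  Be : ∀ n v, ∀ p ∈ U ×ˢ V, |B n v p| ≤ ‖v‖ * e n p
  closed : ∀ n v, ∀ p ∈ U ×ˢ V,
    fderiv ℝ (F n) p (v, 0) = fderiv ℝ (A n v) p (0, 1) + fderiv ℝ (B n v) p (0, Complex.I)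
  lim : ∀ f : ℂ × ℂ → ℝ, Continuous f → HasCompactSupport f → tsupport f ⊆ U ×ˢ V →
    Tendsto (fun n => ∫ p in U ×ˢ V, f p * F n p) atTop (𝓝 (∫ p, f p ∂τ))
  vor : ∀ M ε : ℝ, 0 < M → 0 < ε → ∀ᶠ n in atTop, ∀ z ∈ U, ∀ (c : ℂ) (s : ℝ), ε ≤ s →
    CSq c s ⊆ V → bdE (fun y => e n (z, y)) c s ≤ M →
    ∃ k : ℤ, |(∫ y in Sq c s, F n (z, y)) - k| ≤ ε

/-- The slice theorem. -/
def Slice_statement : Prop :=
  ∀ (U V : Set ℂ) (τ : Measure (ℂ × ℂ)) [IsFiniteMeasure τ] (F e : ℕ → ℂ × ℂ → ℝ)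
    (A B : ℕ → ℂ → ℂ × ℂ → ℝ) (C : ℝ≥0∞), SliceData U V τ F e A B C →
    ∃ ν : ℂ → Measure ℂ, Measurable ν ∧
      (∀ᵐ z ∂(volume.restrict U), ∃ P : Multiset ℂ, (∀ p ∈ P, p ∈ V) ∧
        ν z = (P.map Measure.dirac).sum) ∧
      (∀ f : ℂ × ℂ → ℝ≥0∞, Measurable f →
        ∫⁻ p, f p ∂τ = ∫⁻ z in U, ∫⁻ y, f (z, y) ∂(ν z)) ∧
      (∀ f : ℂ × ℂ → ℝ, Integrable f τ →
        IntegrableOn (fun z => ∫ y, f (z, y) ∂(ν z)) U ∧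
        ∫ p, f p ∂τ = ∫ z in U, ∫ y, f (z, y) ∂(ν z))

end Vale.Agent.P247.H514
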