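import Vale.Agent.P247.H514.Kol
import Vale.Agent.P247.H514.SliceSta

/-!
# P247, Stage 2, package ICUR-INT: the functions `z ↦ ∫ ψ(y) F(z,y) dy`.
-/

open Set MeasureTheory Filter Topology Metric
open scoped ENNReal

noncomputable section

namespace Vale.Agent.P247.H514

/-- A function, continuous on the open set `V` and zero off a closed subset, is continuous. -/
lemma cont_of_zero_off {X : Type*} [TopologicalSpace X] {K V : Set X} (hK : IsClosed K)
    (hV : IsOpen V) (hKV : K ⊆ V) {f : X → ℝ} (hf : ContinuousOn f V)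
    (h0 : ∀ x, x ∉ K → f x = 0) : Continuous f := by
  rw [continuous_iff_continuousAt]
  intro x
  by_cases hx : x ∈ K
  · exact hf.continuousAt (hV.mem_nhds (hKV hx))
  · have h1 : f =ᶠ[𝓝 x] fun _ => 0 := by
      filter_upwards [hK.isOpen_compl.mem_nhds hx] with y hy
      exact h0 y hy
    exact (continuousAt_const (y := (0 : ℝ))).congr h1.symm

/-- Product of a compactly supported continuous function and a function continuous near the
support. -/
lemma cont_mul {X : Type*} [TopologicalSpace X] {V : Set X} (hV : IsOpen V) {ψ a : X → ℝ}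
    (hψ : Continuous ψ) (hψV : tsupport ψ ⊆ V) (ha : ContinuousOn a V) :
    Continuous fun y => ψ y * a y := by
  refine cont_of_zero_off (isClosed_tsupport ψ) hV hψV (hψ.continuousOn.mul ha) ?_
  intro x hx
  rw [image_eq_zero_of_notMem_tsupport hx, zero_mul]

lemma hcs_mul {X : Type*} [TopologicalSpace X] {ψ a : X → ℝ}
    (hψ : HasCompactSupport ψ) : HasCompactSupport fun y => ψ y * a y := hψ.mul_right

/-- Integration by parts with one function compactly supported in `V`, the other one of class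
`C¹` on `V`. -/
lemma ibp {V : Set ℂ} (hV : IsOpen V) {ψ a : ℂ → ℝ} (hψ : ContDiff ℝ 1 ψ)
    (hψc : HasCompactSupport ψ) (hψV : tsupport ψ ⊆ V) (ha : ContDiffOn ℝ 1 a V) (w : ℂ) :
    ∫ y, ψ y * fderiv ℝ a y w = - ∫ y, fderiv ℝ ψ y w * a y := by
  have hc1 : Continuous fun y => fderiv ℝ ψ y w :=
    (hψ.continuous_fderiv one_ne_zero).clm_apply continuous_const
  have hs1 : tsupport (fun y => fderiv ℝ ψ y w) ⊆ tsupport ψ := tsupport_fderiv_apply_subset ℝ w
  have hk1 : HasCompactSupport fun y => fderiv ℝ ψ y w := hψc.fderiv_apply ℝ w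
  apply integral_mul_fderiv_eq_neg_fderiv_mul_of_integrable
  · apply Continuous.integrable_of_hasCompactSupport
    · exact cont_mul hV hc1 (hs1.trans hψV) ha.continuousOn
    · exact hcs_mul hk1
  · apply Continuous.integrable_of_hasCompactSupport
    · exact cont_mul hV hψ.continuous hψV
        ((ha.continuousOn_fderiv_of_isOpen hV le_rfl).clm_apply continuousOn_const)
    · exact hcs_mul hψc
  · apply Continuous.integrable_of_hasCompactSupport
    · exact cont_mul hV hψ.continuous hψV ha.continuousOn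
    · exact hcs_mul hψc
  · intro x _
    exact (hψ.differentiable one_ne_zero).differentiableAt
  · intro x hx
    exact (ha.contDiffAt (hV.mem_nhds (hψV hx))).differentiableAt one_ne_zero

/-- `z ↦ ∫ ψ(y) F(z,y) dy`, with `F` cut off outside `U ×ˢ V`. -/
def uu (U V : Set ℂ) (F : ℂ × ℂ → ℝ) (ψ : ℂ → ℝ) (z : ℂ) : ℝ :=
  ∫ y, ψ y * (U ×ˢ V).indicator F (z, y)

lemma measurable_ind {U V : Set ℂ} (hU : IsOpen U) (hV : IsOpen V) {F : ℂ × ℂ → ℝ}
    (hF : ContinuousOn F (U ×ˢ V)) : Measurable ((U ×ˢ V).indicator F) := by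
  classical
  rw [← Set.piecewise_eq_indicator]
  exact hF.measurable_piecewise continuousOn_const (hU.prod hV).measurableSet

lemma uu_measurable {U V : Set ℂ} (hU : IsOpen U) (hV : IsOpen V) {F : ℂ × ℂ → ℝ}
    (hF : ContinuousOn F (U ×ˢ V)) {ψ : ℂ → ℝ} (hψ : Continuous ψ) :
    Measurable (uu U V F ψ) := by
  have h1 : StronglyMeasurable (Function.uncurry fun z y : ℂ =>
      ψ y * (U ×ˢ V).indicator F (z, y)) := by
    apply Measurable.stronglyMeasurable
    exact (hψ.measurable.comp measurable_snd).mul (measurable_ind hU hV hF)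
  exact h1.integral_prod_right.measurable

lemma uu_eq {U V : Set ℂ} {F : ℂ × ℂ → ℝ} {ψ : ℂ → ℝ} (hψV : tsupport ψ ⊆ V) {z : ℂ}
    (hz : z ∈ U) : uu U V F ψ z = ∫ y, ψ y * F (z, y) := by
  apply integral_congr_ae
  filter_upwards with y
  by_cases hy : y ∈ V
  · rw [indicator_of_mem (show (z, y) ∈ U ×ˢ V from ⟨hz, hy⟩)]
  · rw [image_eq_zero_of_notMem_tsupport (fun h => hy (hψV h)), zero_mul, zero_mul]

/-- The energy of a slice. -/
def gg (U V : Set ℂ) (e : ℂ × ℂ → ℝ) (z : ℂ) : ℝ≥0∞ :=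
  ∫⁻ y in V, ENNReal.ofReal ((U ×ˢ V).indicator e (z, y))

lemma gg_measurable {U V : Set ℂ} (hU : IsOpen U) (hV : IsOpen V) {e : ℂ × ℂ → ℝ}
    (he : ContinuousOn e (U ×ˢ V)) : Measurable (gg U V e) :=
  (measurable_ind hU hV he).ennreal_ofReal.lintegral_prod_right'

lemma gg_eq {U V : Set ℂ} (hV : IsOpen V) {e : ℂ × ℂ → ℝ} {z : ℂ} (hz : z ∈ U) :
    gg U V e z = ∫⁻ y in V, ENNReal.ofReal (e (z, y)) := by
  apply lintegral_congr_ae
  filter_upwards [ae_restrict_mem hV.measurableSet] with y hy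
  rw [indicator_of_mem (show (z, y) ∈ U ×ˢ V from ⟨hz, hy⟩)]

lemma gg_int {U V : Set ℂ} (hU : IsOpen U) (hV : IsOpen V) {e : ℂ × ℂ → ℝ}
    (he : ContinuousOn e (U ×ˢ V)) :
    ∫⁻ z in U, gg U V e z = ∫⁻ p in U ×ˢ V, ENNReal.ofReal (e p) := by
  have h1 : ∫⁻ p in U ×ˢ V, ENNReal.ofReal (e p) =
      ∫⁻ p in U ×ˢ V, ENNReal.ofReal ((U ×ˢ V).indicator e p) := by
    apply lintegral_congr_ae
    filter_upwards [ae_restrict_mem (hU.prod hV).measurableSet] with p hp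
    rw [indicator_of_mem hp]
  rw [h1, Measure.volume_eq_prod, ← Measure.prod_restrict,
    lintegral_prod _ (measurable_ind hU hV he).ennreal_ofReal.aemeasurable]
  rfl

/-- Bound of `∫ ψ F` by the energy. -/
lemma mul_bound {U V : Set ℂ} (hV : IsOpen V) {F e : ℂ × ℂ → ℝ} {ψ : ℂ → ℝ}
    (hψV : tsupport ψ ⊆ V) {L : ℝ} (hψL : ∀ y, |ψ y| ≤ L) {z : ℂ} (hz : z ∈ U) {c : ℝ}
    (hF : ∀ p ∈ U ×ˢ V, |F p| ≤ c * e p) (hc : 0 ≤ c) :
    ‖∫ y, ψ y * F (z, y)‖ₑ ≤ ENNReal.ofReal (L * c) * gg U V e z := by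
  have hL : 0 ≤ L := (abs_nonneg _).trans (hψL 0)
  have h0 : ∫ y, ψ y * F (z, y) = ∫ y in V, ψ y * F (z, y) := by
    rw [← integral_indicator hV.measurableSet]
    apply integral_congr_ae
    filter_upwards with y
    by_cases hy : y ∈ V
    · rw [indicator_of_mem hy]
    · rw [indicator_of_notMem hy, image_eq_zero_of_notMem_tsupport (fun h => hy (hψV h)), zero_mul]
  rw [h0, gg_eq hV hz]
  refine (enorm_integral_le_lintegral_enorm _).trans ?_
  rw [← lintegral_const_mul' _ _ ENNReal.ofReal_ne_top]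
  apply lintegral_mono_ae
  filter_upwards [ae_restrict_mem hV.measurableSet] with y hy
  rw [← ENNReal.ofReal_mul (by positivity), ← ofReal_norm, Real.norm_eq_abs, abs_mul]
  apply ENNReal.ofReal_le_ofReal
  calc |ψ y| * |F (z, y)| ≤ L * (c * e (z, y)) :=
        mul_le_mul (hψL y) (hF _ ⟨hz, hy⟩) (abs_nonneg _) hL
    _ = L * c * e (z, y) := by ring

/-- The `z`-derivative of `F`, integrated against `ψ`. -/
lemma slice_deriv {U V : Set ℂ} (hU : IsOpen U) (hV : IsOpen V) {F A B : ℂ × ℂ → ℝ} {v : ℂ}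
    (cA : ContDiffOn ℝ 1 A (U ×ˢ V)) (cB : ContDiffOn ℝ 1 B (U ×ˢ V))
    (hcl : ∀ p ∈ U ×ˢ V, fderiv ℝ F p (v, 0) = fderiv ℝ A p (0, 1) + fderiv ℝ B p (0, Complex.I))
    {ψ : ℂ → ℝ} (hψ : ContDiff ℝ 1 ψ) (hψc : HasCompactSupport ψ) (hψV : tsupport ψ ⊆ V)
    {z : ℂ} (hz : z ∈ U) :
    ∫ y, ψ y * fderiv ℝ F (z, y) (v, 0) =
      - (∫ y, fderiv ℝ ψ y 1 * A (z, y)) - ∫ y, fderiv ℝ ψ y Complex.I * B (z, y) := by
  have hUV : IsOpen (U ×ˢ V) := hU.prod hV
  have hsl : ∀ G : ℂ × ℂ → ℝ, ContDiffOn ℝ 1 G (U ×ˢ V) →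
      ContDiffOn ℝ 1 (fun y => G (z, y)) V := by
    intro G hG
    refine hG.comp (contDiff_const.prodMk contDiff_id).contDiffOn ?_
    intro y hy
    exact ⟨hz, hy⟩
  have hfd : ∀ G : ℂ × ℂ → ℝ, ContDiffOn ℝ 1 G (U ×ˢ V) → ∀ y ∈ V, ∀ w : ℂ,
      fderiv ℝ (fun y => G (z, y)) y w = fderiv ℝ G (z, y) (0, w) := by
    intro G hG y hy w
    have h1 : HasFDerivAt G (fderiv ℝ G (z, y)) (z, y) :=
      ((hG.contDiffAt (hUV.mem_nhds ⟨hz, hy⟩)).differentiableAt one_ne_zero).hasFDerivAt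
    have h2 : HasFDerivAt (fun y : ℂ => (z, y)) (ContinuousLinearMap.inr ℝ ℂ ℂ) y :=
      hasFDerivAt_prodMk_right z y
    have h3 := h1.comp y h2
    have h4 : fderiv ℝ (fun y => G (z, y)) y =
        (fderiv ℝ G (z, y)).comp (ContinuousLinearMap.inr ℝ ℂ ℂ) := h3.fderiv
    rw [h4]
    simp
  have h1 : ∫ y, ψ y * fderiv ℝ F (z, y) (v, 0) =
      (∫ y, ψ y * fderiv ℝ (fun y => A (z, y)) y 1) +
        ∫ y, ψ y * fderiv ℝ (fun y => B (z, y)) y Complex.I := by
    rw [← integral_add]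
    · apply integral_congr_ae
      filter_upwards with y
      by_cases hy : y ∈ V
      · rw [hfd A cA y hy, hfd B cB y hy, hcl _ ⟨hz, hy⟩]
        ring
      · rw [image_eq_zero_of_notMem_tsupport (fun h => hy (hψV h))]
        ring
    · apply Continuous.integrable_of_hasCompactSupport
      · exact cont_mul hV hψ.continuous hψV
          (((hsl A cA).continuousOn_fderiv_of_isOpen hV le_rfl).clm_apply continuousOn_const)
      · exact hcs_mul hψc
    · apply Continuous.integrable_of_hasCompactSupport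
      · exact cont_mul hV hψ.continuous hψV
          (((hsl B cB).continuousOn_fderiv_of_isOpen hV le_rfl).clm_apply continuousOn_const)
      · exact hcs_mul hψc
  rw [h1, ibp hV hψ hψc hψV (hsl A cA) 1, ibp hV hψ hψc hψV (hsl B cB) Complex.I]
  ring


/-- Fundamental theorem of calculus for `uu` along a segment. -/
lemma uu_sub {U V : Set ℂ} (hU : IsOpen U) (hV : IsOpen V) {F : ℂ × ℂ → ℝ}
    (cF : ContDiffOn ℝ 1 F (U ×ˢ V))
    {ψ : ℂ → ℝ} (hψ : ContDiff ℝ 1 ψ) (hψc : HasCompactSupport ψ) (hψV : tsupport ψ ⊆ V)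
    {z h : ℂ} (hzh : ∀ t ∈ Icc (0 : ℝ) 1, z + (t : ℂ) * h ∈ U) :
    uu U V F ψ (z + h) - uu U V F ψ z =
      ∫ t in Ioc (0 : ℝ) 1, ∫ y, ψ y * fderiv ℝ F (z + (t : ℂ) * h, y) (h, 0) := by
  have hUV : IsOpen (U ×ˢ V) := hU.prod hV
  have hz : z ∈ U := by simpa using hzh 0 (by simp)
  have hzh1 : z + h ∈ U := by simpa using hzh 1 (by simp)
  have hKm : MeasurableSet (tsupport ψ) := (isClosed_tsupport ψ).measurableSet
  have hred : ∀ f : ℂ → ℝ, ∫ y, ψ y * f y = ∫ y in tsupport ψ, ψ y * f y := by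
    intro f
    rw [← integral_indicator hKm]
    apply integral_congr_ae
    filter_upwards with y
    by_cases hy : y ∈ tsupport ψ
    · rw [indicator_of_mem hy]
    · rw [indicator_of_notMem hy, image_eq_zero_of_notMem_tsupport hy, zero_mul]
  have hsl : ∀ z' ∈ U, ContinuousOn (fun y => F (z', y)) V := by
    intro z' hz'
    refine cF.continuousOn.comp (by fun_prop) ?_
    intro y hy
    exact ⟨hz', hy⟩
  have hint : ∀ z' ∈ U, Integrable fun y => ψ y * F (z', y) := fun z' hz' =>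
    (cont_mul hV hψ.continuous hψV (hsl z' hz')).integrable_of_hasCompactSupport (hcs_mul hψc)
  have hderc : ContinuousOn (fun q : ℂ × ℝ => fderiv ℝ F (z + (q.2 : ℂ) * h, q.1) (h, 0))
      (V ×ˢ Icc (0 : ℝ) 1) := by
    refine ContinuousOn.clm_apply ?_ continuousOn_const
    refine (cF.continuousOn_fderiv_of_isOpen hUV le_rfl).comp (by fun_prop) ?_
    rintro ⟨y, t⟩ ⟨hy, ht⟩
    exact ⟨hzh t ht, hy⟩
  have hftc : ∀ y ∈ V, F (z + h, y) - F (z, y) =
      ∫ t in Ioc (0 : ℝ) 1, fderiv ℝ F (z + (t : ℂ) * h, y) (h, 0) := by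
    intro y hy
    have hd : ∀ t ∈ uIcc (0 : ℝ) 1, HasDerivAt (fun t : ℝ => F (z + (t : ℂ) * h, y))
        (fderiv ℝ F (z + (t : ℂ) * h, y) (h, 0)) t := by
      intro t ht
      rw [uIcc_of_le zero_le_one] at ht
      have h1 : HasFDerivAt F (fderiv ℝ F (z + (t : ℂ) * h, y)) (z + (t : ℂ) * h, y) :=
        ((cF.contDiffAt (hUV.mem_nhds ⟨hzh t ht, hy⟩)).differentiableAt
          one_ne_zero).hasFDerivAt
      have h2 : HasDerivAt (fun t : ℝ => (z + (t : ℂ) * h, y)) (h, 0) t := by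
        apply HasDerivAt.prodMk _ (hasDerivAt_const t y)
        have h3 : HasDerivAt (fun t : ℝ => (t : ℂ) * h) (1 * h) t :=
          (Complex.ofRealCLM.hasDerivAt (x := t)).mul_const h
        rw [one_mul] at h3
        exact h3.const_add z
      exact h1.comp_hasDerivAt t h2
    have hc : ContinuousOn (fun t : ℝ => fderiv ℝ F (z + (t : ℂ) * h, y) (h, 0))
        (Icc (0 : ℝ) 1) := by
      refine hderc.comp (f := fun t : ℝ => (y, t)) (by fun_prop) ?_
      intro t ht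
      exact ⟨hy, ht⟩
    have h4 := intervalIntegral.integral_eq_sub_of_hasDerivAt hd
      (by
        apply ContinuousOn.intervalIntegrable
        rwa [uIcc_of_le zero_le_one])
    rw [intervalIntegral.integral_of_le zero_le_one] at h4
    rw [h4]
    simp
  have hjoint : Integrable (Function.uncurry fun (y : ℂ) (t : ℝ) =>
      ψ y * fderiv ℝ F (z + (t : ℂ) * h, y) (h, 0))
      ((volume.restrict (tsupport ψ)).prod (volume.restrict (Ioc (0 : ℝ) 1))) := by
    rw [Measure.prod_restrict]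
    have h5 : IntegrableOn (Function.uncurry fun (y : ℂ) (t : ℝ) =>
        ψ y * fderiv ℝ F (z + (t : ℂ) * h, y) (h, 0)) (tsupport ψ ×ˢ Icc (0 : ℝ) 1)
        ((volume : Measure ℂ).prod (volume : Measure ℝ)) := by
      apply ContinuousOn.integrableOn_compact (hψc.isCompact.prod isCompact_Icc)
      refine ContinuousOn.mul ?_ (hderc.mono (prod_mono hψV subset_rfl))
      exact (hψ.continuous.comp continuous_fst).continuousOn
    exact h5.mono_set (prod_mono subset_rfl Ioc_subset_Icc_self)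
  rw [uu_eq hψV hz, uu_eq hψV hzh1, ← integral_sub (hint _ hzh1) (hint _ hz)]
  calc ∫ y, (ψ y * F (z + h, y) - ψ y * F (z, y))
      = ∫ y, ψ y * (F (z + h, y) - F (z, y)) := by
        congr 1; ext y; ring
    _ = ∫ y in tsupport ψ, ψ y * (F (z + h, y) - F (z, y)) := hred _
    _ = ∫ y in tsupport ψ, ∫ t in Ioc (0 : ℝ) 1,
          ψ y * fderiv ℝ F (z + (t : ℂ) * h, y) (h, 0) := by
        apply setIntegral_congr_fun hKm
        intro y hy
        simp only
        rw [integral_const_mul, hftc y (hψV hy)]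
    _ = ∫ t in Ioc (0 : ℝ) 1, ∫ y in tsupport ψ,
          ψ y * fderiv ℝ F (z + (t : ℂ) * h, y) (h, 0) := integral_integral_swap hjoint
    _ = ∫ t in Ioc (0 : ℝ) 1, ∫ y, ψ y * fderiv ℝ F (z + (t : ℂ) * h, y) (h, 0) := by
        congr 1; ext t
        exact (hred _).symm

/-- The translation estimate. -/
lemma uu_trans {U V : Set ℂ} (hU : IsOpen U) (hV : IsOpen V) {F e : ℂ × ℂ → ℝ}
    {A B : ℂ → ℂ × ℂ → ℝ}
    (cF : ContDiffOn ℝ 1 F (U ×ˢ V)) (cA : ∀ v, ContDiffOn ℝ 1 (A v) (U ×ˢ V))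
    (cB : ∀ v, ContDiffOn ℝ 1 (B v) (U ×ˢ V)) (ce : ContinuousOn e (U ×ˢ V))
    (Ae : ∀ v, ∀ p ∈ U ×ˢ V, |A v p| ≤ ‖v‖ * e p) (Be : ∀ v, ∀ p ∈ U ×ˢ V, |B v p| ≤ ‖v‖ * e p)
    (hcl : ∀ v, ∀ p ∈ U ×ˢ V,
      fderiv ℝ F p (v, 0) = fderiv ℝ (A v) p (0, 1) + fderiv ℝ (B v) p (0, Complex.I))
    {ψ : ℂ → ℝ} (hψ : ContDiff ℝ 1 ψ) (hψc : HasCompactSupport ψ) (hψV : tsupport ψ ⊆ V)
    {L : ℝ} (hL1 : ∀ y, |fderiv ℝ ψ y 1| ≤ L) (hL2 : ∀ y, |fderiv ℝ ψ y Complex.I| ≤ L)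
    (z h : ℂ) (hzh : ∀ t ∈ Icc (0 : ℝ) 1, z + (t : ℂ) * h ∈ U) :
    ‖uu U V F ψ (z + h) - uu U V F ψ z‖ₑ ≤
      ‖h‖ₑ * ∫⁻ t in Ioc (0 : ℝ) 1, ENNReal.ofReal (2 * L) * gg U V e (z + (t : ℂ) * h) := by
  have hL : 0 ≤ L := (abs_nonneg _).trans (hL1 0)
  have hs : ∀ w : ℂ, tsupport (fun y => fderiv ℝ ψ y w) ⊆ V := fun w =>
    (tsupport_fderiv_apply_subset ℝ w).trans hψV
  rw [uu_sub hU hV cF hψ hψc hψV hzh]
  refine (enorm_integral_le_lintegral_enorm _).trans ?_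
  have hm : Measurable fun t : ℝ => ENNReal.ofReal (2 * L) * gg U V e (z + (t : ℂ) * h) := by
    apply Measurable.const_mul
    apply (gg_measurable hU hV ce).comp
    fun_prop
  rw [← lintegral_const_mul _ hm]
  apply lintegral_mono_ae
  filter_upwards [ae_restrict_mem measurableSet_Ioc] with t ht
  have hzt : z + (t : ℂ) * h ∈ U := hzh t ⟨ht.1.le, ht.2⟩
  rw [slice_deriv hU hV (cA h) (cB h) (hcl h) hψ hψc hψV hzt]
  have h1 := mul_bound (U := U) hV (hs 1) hL1 hzt (Ae h) (norm_nonneg h)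
  have h2 := mul_bound (U := U) hV (hs Complex.I) hL2 hzt (Be h) (norm_nonneg h)
  calc ‖-(∫ y, fderiv ℝ ψ y 1 * A h (z + (t : ℂ) * h, y)) -
        ∫ y, fderiv ℝ ψ y Complex.I * B h (z + (t : ℂ) * h, y)‖ₑ
      ≤ ‖∫ y, fderiv ℝ ψ y 1 * A h (z + (t : ℂ) * h, y)‖ₑ +
        ‖∫ y, fderiv ℝ ψ y Complex.I * B h (z + (t : ℂ) * h, y)‖ₑ := by
        rw [sub_eq_add_neg]
        refine (enorm_add_le _ _).trans ?_
        rw [enorm_neg, enorm_neg]
    _ ≤ ENNReal.ofReal (L * ‖h‖) * gg U V e (z + (t : ℂ) * h) +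
        ENNReal.ofReal (L * ‖h‖) * gg U V e (z + (t : ℂ) * h) := add_le_add h1 h2
    _ = ‖h‖ₑ * (ENNReal.ofReal (2 * L) * gg U V e (z + (t : ℂ) * h)) := by
        rw [ENNReal.ofReal_mul hL, ENNReal.ofReal_mul zero_le_two, ofReal_norm,
          ENNReal.ofReal_ofNat]
        ring

end Vale.Agent.P247.H514
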