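import Vale.Agent.P247.H514.Slice1

/-!
# P247, Stage 2, package ICUR-INT: convergence of the functions `z ↦ ∫ ψ(y) F n (z,y) dy`.
-/

open Set MeasureTheory Filter Topology Metric
open scoped ENNReal Manifold ContDiff

noncomputable section

namespace Vale.Agent.P247.H514

/-- A smooth cut-off. -/
lemma cutoff {s O : Set ℂ} (hs : IsClosed s) (hO : IsOpen O) (hsO : s ⊆ O) :
    ∃ ψ : ℂ → ℝ, ContDiff ℝ 1 ψ ∧ (∀ x, 0 ≤ ψ x) ∧ (∀ x, ψ x ≤ 1) ∧ (∀ x ∈ s, ψ x = 1) ∧
      ∀ x, x ∉ O → ψ x = 0 := by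
  obtain ⟨f, hf0, hf1, hf⟩ := exists_contMDiffMap_zero_one_of_isClosed 𝓘(ℝ, ℂ) (n := (⊤ : ℕ∞))
    hO.isClosed_compl hs (by
      rw [disjoint_compl_left_iff_subset]
      exact hsO)
  refine ⟨f, ?_, fun x => (hf x).1, fun x => (hf x).2, fun x hx => hf1 hx, fun x hx => hf0 hx⟩
  exact f.contMDiff.contDiff.of_le (by norm_cast)

variable {U V : Set ℂ} {τ : Measure (ℂ × ℂ)} {F e : ℕ → ℂ × ℂ → ℝ}
  {A B : ℕ → ℂ → ℂ × ℂ → ℝ} {C : ℝ≥0∞}

lemma bdd_of_cs {f : ℂ → ℝ} (hf : Continuous f) (hc : HasCompactSupport f) :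
    ∃ L, ∀ x, |f x| ≤ L := hf.bounded_above_of_compact_support hc

lemma SliceData.weak (D : SliceData U V τ F e A B C) {θ ψ : ℂ → ℝ} (hθ : Continuous θ)
    (hθc : HasCompactSupport θ) (hθU : tsupport θ ⊆ U) (hψ : Continuous ψ)
    (hψc : HasCompactSupport ψ) (hψV : tsupport ψ ⊆ V) :
    Tendsto (fun n => ∫ z in U, θ z * uu U V (F n) ψ z) atTop
      (𝓝 (∫ p, θ p.1 * ψ p.2 ∂τ)) := by
  have hUV : IsOpen (U ×ˢ V) := D.hU.prod D.hV
  have hc : Continuous fun p : ℂ × ℂ => θ p.1 * ψ p.2 :=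
    (hθ.comp continuous_fst).mul (hψ.comp continuous_snd)
  have hzero : ∀ p : ℂ × ℂ, p ∉ tsupport θ ×ˢ tsupport ψ → θ p.1 * ψ p.2 = 0 := by
    intro p hp
    by_cases h1 : p.1 ∈ tsupport θ
    · have h2 : p.2 ∉ tsupport ψ := fun h2 => hp ⟨h1, h2⟩
      rw [image_eq_zero_of_notMem_tsupport h2, mul_zero]
    · rw [image_eq_zero_of_notMem_tsupport h1, zero_mul]
  have hcs : HasCompactSupport fun p : ℂ × ℂ => θ p.1 * ψ p.2 :=
    HasCompactSupport.intro (hθc.isCompact.prod hψc.isCompact) hzero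
  have hsub : tsupport (fun p : ℂ × ℂ => θ p.1 * ψ p.2) ⊆ U ×ˢ V := by
    refine (closure_minimal ?_ ((isClosed_tsupport θ).prod (isClosed_tsupport ψ))).trans
      (prod_mono hθU hψV)
    intro p hp
    by_contra h
    exact hp (hzero p h)
  refine (D.lim _ hc hcs hsub).congr ?_
  intro n
  have hint : Integrable fun p : ℂ × ℂ => (θ p.1 * ψ p.2) * (U ×ˢ V).indicator (F n) p := by
    have h1 : (fun p : ℂ × ℂ => (θ p.1 * ψ p.2) * (U ×ˢ V).indicator (F n) p) =
        fun p : ℂ × ℂ => (θ p.1 * ψ p.2) * (F n) p := by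
      ext p
      by_cases hp : p ∈ U ×ˢ V
      · rw [indicator_of_mem hp]
      · have h2 : θ p.1 * ψ p.2 = 0 :=
          image_eq_zero_of_notMem_tsupport (f := fun p : ℂ × ℂ => θ p.1 * ψ p.2)
            (fun h => hp (hsub h))
        rw [h2, zero_mul, zero_mul]
    rw [h1]
    exact (cont_mul hUV hc hsub (D.cF n).continuousOn).integrable_of_hasCompactSupport
      (hcs_mul hcs)
  have h3 : ∫ p in U ×ˢ V, (θ p.1 * ψ p.2) * F n p =
      ∫ p, (θ p.1 * ψ p.2) * (U ×ˢ V).indicator (F n) p := by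
    rw [← integral_indicator hUV.measurableSet]
    congr 1; ext p
    by_cases hp : p ∈ U ×ˢ V
    · rw [indicator_of_mem hp, indicator_of_mem hp]
    · rw [indicator_of_notMem hp, indicator_of_notMem hp, mul_zero]
  rw [h3, Measure.volume_eq_prod, integral_prod _ hint, ← integral_indicator D.hU.measurableSet]
  congr 1; ext z
  by_cases hz : z ∈ U
  · rw [indicator_of_mem hz, uu, ← integral_const_mul]
    congr 1; ext y
    ring
  · rw [indicator_of_notMem hz]
    have : θ z = 0 := image_eq_zero_of_notMem_tsupport (fun h => hz (hθU h))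
    simp [this]

lemma SliceData.kol_app (D : SliceData U V τ F e A B C) {ψ : ℂ → ℝ} (hψ : ContDiff ℝ 1 ψ)
    (hψc : HasCompactSupport ψ) (hψV : tsupport ψ ⊆ V) {K : Set ℂ} (hK : IsCompact K)
    (hKU : K ⊆ U) :
    ∃ v : ℂ → ℝ, IntegrableOn v K ∧
      Tendsto (fun n => ∫⁻ z in K, ‖uu U V (F n) ψ z - v z‖ₑ) atTop (𝓝 0) := by
  obtain ⟨L0, hL0⟩ := bdd_of_cs hψ.continuous hψc
  obtain ⟨L1, hL1⟩ := bdd_of_cs
    ((hψ.continuous_fderiv one_ne_zero).clm_apply (continuous_const (y := (1 : ℂ))))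
    (hψc.fderiv_apply ℝ 1)
  obtain ⟨L2, hL2⟩ := bdd_of_cs
    ((hψ.continuous_fderiv one_ne_zero).clm_apply (continuous_const (y := Complex.I)))
    (hψc.fderiv_apply ℝ Complex.I)
  set L : ℝ := max L0 (max L1 L2) with hL
  have hLn : 0 ≤ L := (abs_nonneg _).trans ((hL0 0).trans (le_max_left _ _))
  refine kol D.hU (fun n => uu_measurable D.hU D.hV (D.cF n).continuousOn hψ.continuous)
    (g := fun n z => ENNReal.ofReal (2 * L) * gg U V (e n) z)
    (fun n => (gg_measurable D.hU D.hV (D.ce n)).const_mul _)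
    (C := ENNReal.ofReal (2 * L) * C) (ENNReal.mul_ne_top ENNReal.ofReal_ne_top D.hC) ?_ ?_ ?_ ?_
    hK hKU
  · intro n
    rw [lintegral_const_mul _ (gg_measurable D.hU D.hV (D.ce n)), gg_int D.hU D.hV (D.ce n)]
    gcongr
    exact D.eC n
  · intro n z hz
    rw [uu_eq hψV hz]
    refine (mul_bound (U := U) (L := L) D.hV hψV (fun y => (hL0 y).trans (le_max_left _ _)) hz
      (c := 1) (F := F n) (e := e n) ?_ zero_le_one).trans ?_
    · intro p hp
      rw [one_mul]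
      exact D.Fe n p hp
    · have : L * 1 ≤ 2 * L := by linarith
      gcongr
  · intro n z h hzh
    exact uu_trans D.hU D.hV (D.cF n) (D.cA n) (D.cB n) (D.ce n) (D.Ae n) (D.Be n) (D.closed n)
      hψ hψc hψV
      (fun y => (hL1 y).trans ((le_max_left _ _).trans (le_max_right _ _)))
      (fun y => (hL2 y).trans ((le_max_right _ _).trans (le_max_right _ _))) z h hzh
  · intro θ hθ hθc hθU
    exact ⟨_, D.weak hθ hθc hθU hψ.continuous hψc hψV⟩

/-- The `L¹` limit is the weak limit. -/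
lemma SliceData.lim_eq (D : SliceData U V τ F e A B C) {ψ : ℂ → ℝ} (hψ : ContDiff ℝ 1 ψ)
    (hψc : HasCompactSupport ψ) (hψV : tsupport ψ ⊆ V) {K : Set ℂ} (hK : IsCompact K)
    (hKU : K ⊆ U) {v : ℂ → ℝ} (hv : IntegrableOn v K)
    (hlim : Tendsto (fun n => ∫⁻ z in K, ‖uu U V (F n) ψ z - v z‖ₑ) atTop (𝓝 0))
    {θ : ℂ → ℝ} (hθ : Continuous θ) (hθK : tsupport θ ⊆ K) :
    ∫ z in K, θ z * v z = ∫ p, θ p.1 * ψ p.2 ∂τ := by
  have hKm : MeasurableSet K := hK.measurableSet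
  have hθc : HasCompactSupport θ := hK.of_isClosed_subset (isClosed_tsupport θ) hθK
  have hw := D.weak hθ hθc (hθK.trans hKU) hψ.continuous hψc hψV
  refine tendsto_nhds_unique ?_ hw
  obtain ⟨L, hL⟩ := bdd_of_cs hθ hθc
  have hLn : 0 ≤ L := (abs_nonneg _).trans (hL 0)
  have hum : ∀ n, Measurable (uu U V (F n) ψ) := fun n =>
    uu_measurable D.hU D.hV (D.cF n).continuousOn hψ.continuous
  have huK : ∀ n, IntegrableOn (uu U V (F n) ψ) K := by
    intro n
    obtain ⟨L0, hL0⟩ := bdd_of_cs hψ.continuous hψc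
    have hL0n : 0 ≤ L0 := (abs_nonneg _).trans (hL0 0)
    refine ⟨(hum n).aestronglyMeasurable, ?_⟩
    rw [hasFiniteIntegral_iff_enorm]
    calc ∫⁻ z in K, ‖uu U V (F n) ψ z‖ₑ
        ≤ ∫⁻ z in K, ENNReal.ofReal (L0 * 1) * gg U V (e n) z := by
          apply lintegral_mono_ae
          filter_upwards [ae_restrict_mem hKm] with z hz
          rw [uu_eq hψV (hKU hz)]
          refine mul_bound (U := U) D.hV hψV hL0 (hKU hz) (c := 1) (F := F n) (e := e n) ?_
            zero_le_one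
          intro p hp
          rw [one_mul]
          exact D.Fe n p hp
      _ ≤ ∫⁻ z in U, ENNReal.ofReal (L0 * 1) * gg U V (e n) z := lintegral_mono_set hKU
      _ = ENNReal.ofReal (L0 * 1) * ∫⁻ z in U, gg U V (e n) z := by
          rw [lintegral_const_mul _ (gg_measurable D.hU D.hV (D.ce n))]
      _ ≤ ENNReal.ofReal (L0 * 1) * C := by
          gcongr
          rw [gg_int D.hU D.hV (D.ce n)]
          exact D.eC n
      _ < ⊤ := ENNReal.mul_lt_top ENNReal.ofReal_lt_top (lt_top_iff_ne_top.2 D.hC)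
  have hred : ∀ n, ∫ z in U, θ z * uu U V (F n) ψ z = ∫ z in K, θ z * uu U V (F n) ψ z := by
    intro n
    rw [← integral_indicator D.hU.measurableSet, ← integral_indicator hKm]
    congr 1; ext z
    by_cases hz : z ∈ K
    · rw [indicator_of_mem hz, indicator_of_mem (hKU hz)]
    · have h0 : θ z = 0 := image_eq_zero_of_notMem_tsupport (fun h => hz (hθK h))
      rw [indicator_of_notMem hz]
      by_cases hz' : z ∈ U
      · rw [indicator_of_mem hz', h0, zero_mul]
      · rw [indicator_of_notMem hz']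
  simp_rw [hred]
  have hθint : ∀ f : ℂ → ℝ, IntegrableOn f K → IntegrableOn (fun z => θ z * f z) K := by
    intro f hf
    exact Integrable.bdd_mul (c := L) hf hθ.aestronglyMeasurable (Eventually.of_forall hL)
  rw [tendsto_iff_edist_tendsto_0]
  have hb : ∀ n, edist (∫ z in K, θ z * uu U V (F n) ψ z) (∫ z in K, θ z * v z) ≤
      ENNReal.ofReal L * ∫⁻ z in K, ‖uu U V (F n) ψ z - v z‖ₑ := by
    intro n
    rw [edist_eq_enorm_sub, ← integral_sub (hθint _ (huK n)) (hθint _ hv)]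
    refine (enorm_integral_le_lintegral_enorm _).trans ?_
    rw [← lintegral_const_mul' _ _ ENNReal.ofReal_ne_top]
    apply lintegral_mono
    intro z
    simp only
    rw [← mul_sub, enorm_mul]
    gcongr
    rw [← ofReal_norm]
    exact ENNReal.ofReal_le_ofReal (hL z)
  refine tendsto_of_tendsto_of_tendsto_of_le_of_le tendsto_const_nhds ?_ (fun _ => zero_le) hb
  have h5 := ENNReal.Tendsto.const_mul (a := ENNReal.ofReal L) hlim
    (Or.inr ENNReal.ofReal_ne_top)
  rwa [mul_zero] at h5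

end Vale.Agent.P247.H514
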