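import Vale.Agent.P247.H514.Slice2

/-!
# P247, Stage 2, package ICUR-INT: absolute continuity of the projection of `τ`, disintegration.
-/

open Set MeasureTheory Filter Topology Metric
open scoped ENNReal ProbabilityTheory

noncomputable section

namespace Vale.Agent.P247.H514

variable {U V : Set ℂ} {τ : Measure (ℂ × ℂ)} {F e : ℕ → ℂ × ℂ → ℝ}
  {A B : ℕ → ℂ → ℂ × ℂ → ℝ} {C : ℝ≥0∞}

lemma SliceData.null_rect (D : SliceData U V τ F e A B C) [IsFiniteMeasure τ] {K' L' : Set ℂ}
    (hK' : IsCompact K') (hKU' : K' ⊆ U) (hL' : IsCompact L') (hLV' : L' ⊆ V)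
    (h0 : volume K' = 0) : τ (K' ×ˢ L') = 0 := by
  obtain ⟨K, hK, hKK, hKU⟩ := exists_compact_between hK' D.hU hKU'
  obtain ⟨L, hL, hLL, hLV⟩ := exists_compact_between hL' D.hV hLV'
  obtain ⟨ψ, hψ, hψ0, hψ1, hψL, hψz⟩ := cutoff hL'.isClosed isOpen_interior hLL
  have htL : tsupport ψ ⊆ L := by
    refine closure_minimal ?_ hL.isClosed
    intro x hx
    by_contra h
    exact hx (hψz x (fun h' => h (interior_subset h')))
  have hψc : HasCompactSupport ψ := hL.of_isClosed_subset (isClosed_tsupport ψ) htL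
  obtain ⟨v, hv, hlim⟩ := D.kol_app hψ hψc (htL.trans hLV) hK hKU
  obtain ⟨δ, hδ, hδK⟩ := hK'.exists_cthickening_subset_open isOpen_interior hKK
  let δs : ℕ → ℝ := fun k => δ / (k + 1)
  have hδpos : ∀ k, 0 < δs k := fun k => by positivity
  have hδle : ∀ k, δs k ≤ δ := fun k => by
    apply div_le_self hδ.le
    have : (0 : ℝ) ≤ k := Nat.cast_nonneg k
    linarith
  have hδlim : Tendsto δs atTop (𝓝 0) := by
    have h1 := (tendsto_one_div_add_atTop_nhds_zero_nat (𝕜 := ℝ)).const_mul δ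
    rw [mul_zero] at h1
    refine h1.congr fun k => ?_
    rw [mul_one_div]
  let θ : ℕ → ℂ → ℝ := fun k z => (thickenedIndicator (hδpos k) K' z : ℝ)
  have hθc : ∀ k, Continuous (θ k) := fun k =>
    NNReal.continuous_coe.comp (thickenedIndicator (hδpos k) K').continuous
  have hθ1 : ∀ k z, θ k z ≤ 1 := fun k z => by
    exact_mod_cast thickenedIndicator_le_one (hδpos k) K' z
  have hθ0 : ∀ k z, 0 ≤ θ k z := fun k z => NNReal.coe_nonneg _
  have hθK : ∀ k, tsupport (θ k) ⊆ K := by
    intro k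
    refine closure_minimal ?_ hK.isClosed
    intro z hz
    by_contra h
    apply hz
    have h1 : z ∉ thickening (δs k) K' := by
      intro h1
      exact h (interior_subset (hδK ((thickening_subset_cthickening_of_le (hδle k) K') h1)))
    show (thickenedIndicator (hδpos k) K' z : ℝ) = 0
    rw [thickenedIndicator_zero (hδpos k) K' h1, NNReal.coe_zero]
  have hθon : ∀ k, ∀ z ∈ K', θ k z = 1 := by
    intro k z hz
    show (thickenedIndicator (hδpos k) K' z : ℝ) = 1
    rw [thickenedIndicator_one (hδpos k) K' hz, NNReal.coe_one]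
  have hθlim : ∀ z, z ∉ K' → Tendsto (fun k => θ k z) atTop (𝓝 0) := by
    intro z hz
    have h1 := thickenedIndicator_tendsto_indicator_closure hδpos hδlim K'
    rw [tendsto_pi_nhds] at h1
    have h2 := h1 z
    rw [hK'.isClosed.closure_eq, indicator_of_notMem hz] at h2
    exact (NNReal.continuous_coe.tendsto 0).comp h2
  have hle : ∀ k, τ.real (K' ×ˢ L') ≤ ∫ z in K, θ k z * v z := by
    intro k
    rw [D.lim_eq hψ hψc (htL.trans hLV) hK hKU hv hlim (hθc k) (hθK k)]
    have hm : MeasurableSet (K' ×ˢ L') := (hK'.prod hL').measurableSet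
    rw [← integral_indicator_one hm]
    apply integral_mono_ae
    · exact (integrable_const (1 : ℝ)).indicator hm
    · apply Integrable.mono' (integrable_const (1 : ℝ))
      · exact (((hθc k).comp continuous_fst).mul
          (hψ.continuous.comp continuous_snd)).aestronglyMeasurable
      · filter_upwards with p
        rw [Real.norm_eq_abs, abs_of_nonneg (mul_nonneg (hθ0 k _) (hψ0 _))]
        calc θ k p.1 * ψ p.2 ≤ 1 * 1 := mul_le_mul (hθ1 k _) (hψ1 _) (hψ0 _) zero_le_one
          _ = 1 := one_mul 1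
    · filter_upwards with p
      by_cases hp : p ∈ K' ×ˢ L'
      · rw [indicator_of_mem hp, hθon k _ hp.1, hψL _ hp.2]
        simp
      · rw [indicator_of_notMem hp]
        exact mul_nonneg (hθ0 k _) (hψ0 _)
  have hlim0 : Tendsto (fun k => ∫ z in K, θ k z * v z) atTop (𝓝 (∫ z in K, (0 : ℝ))) := by
    apply tendsto_integral_of_dominated_convergence (fun z => ‖v z‖)
    · intro k
      exact (hθc k).aestronglyMeasurable.mul hv.aestronglyMeasurable
    · exact hv.norm
    · intro k
      filter_upwards with z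
      rw [norm_mul, Real.norm_eq_abs, abs_of_nonneg (hθ0 k z)]
      exact mul_le_of_le_one_left (norm_nonneg _) (hθ1 k z)
    · have h1 : ∀ᵐ z ∂(volume.restrict K), z ∉ K' := by
        apply ae_restrict_of_ae
        exact measure_eq_zero_iff_ae_notMem.1 h0
      filter_upwards [h1] with z hz
      have := (hθlim z hz).mul_const (v z)
      rwa [zero_mul] at this
  rw [integral_zero] at hlim0
  have h2 : τ.real (K' ×ˢ L') ≤ 0 := ge_of_tendsto' hlim0 hle
  have h3 : τ.real (K' ×ˢ L') = 0 := le_antisymm h2 measureReal_nonneg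
  rwa [measureReal_eq_zero_iff] at h3

lemma SliceData.fst_ac (D : SliceData U V τ F e A B C) [IsFiniteMeasure τ] :
    τ.fst ≪ (volume : Measure ℂ) := by
  refine Measure.AbsolutelyContinuous.mk fun s hs h0 => ?_
  rw [Measure.fst_apply hs]
  have hA : MeasurableSet ((s ∩ U) ×ˢ V) :=
    (hs.inter D.hU.measurableSet).prod D.hV.measurableSet
  have hA0 : τ ((s ∩ U) ×ˢ V) = 0 := by
    by_contra hne
    obtain ⟨Q, hQA, hQ, hlt⟩ := hA.exists_isCompact_lt_add (measure_ne_top τ _) hne
    have h1 : IsCompact (Prod.fst '' Q) := hQ.image continuous_fst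
    have h2 : IsCompact (Prod.snd '' Q) := hQ.image continuous_snd
    have h3 : Prod.fst '' Q ⊆ s ∩ U := by
      rintro _ ⟨p, hp, rfl⟩
      exact (hQA hp).1
    have h4 : Prod.snd '' Q ⊆ V := by
      rintro _ ⟨p, hp, rfl⟩
      exact (hQA hp).2
    have h5 := D.null_rect h1 (h3.trans inter_subset_right) h2 h4
      (measure_mono_null (h3.trans inter_subset_left) h0)
    have h6 : τ Q = 0 := by
      refine measure_mono_null ?_ h5
      intro p hp
      exact ⟨⟨p, hp, rfl⟩, ⟨p, hp, rfl⟩⟩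
    rw [h6, zero_add] at hlt
    exact lt_irrefl _ hlt
  refine measure_mono_null ?_ (measure_union_null hA0 D.hτ)
  intro p hp
  by_cases hp' : p ∈ U ×ˢ V
  · exact Or.inl ⟨⟨hp, hp'.1⟩, hp'.2⟩
  · exact Or.inr hp'

/-- The slices of `τ`. -/
def TT (τ : Measure (ℂ × ℂ)) [IsFiniteMeasure τ] (z : ℂ) : Measure ℂ :=
  τ.fst.rnDeriv volume z • τ.condKernel z

lemma TT_apply [IsFiniteMeasure τ] (z : ℂ) (s : Set ℂ) :
    TT τ z s = τ.fst.rnDeriv volume z * τ.condKernel z s := rfl

lemma TT_measurable [IsFiniteMeasure τ] : Measurable (TT τ) := by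
  refine Measure.measurable_of_measurable_coe _ fun s hs => ?_
  exact (Measure.measurable_rnDeriv _ _).mul (ProbabilityTheory.Kernel.measurable_coe _ hs)

lemma lint_TT [IsFiniteMeasure τ] (hac : τ.fst ≪ (volume : Measure ℂ)) {f : ℂ × ℂ → ℝ≥0∞}
    (hf : Measurable f) : ∫⁻ p, f p ∂τ = ∫⁻ z, ∫⁻ y, f (z, y) ∂(TT τ z) := by
  have h1 : ∫⁻ p, f p ∂τ = ∫⁻ z, ∫⁻ y, f (z, y) ∂(τ.condKernel z) ∂τ.fst := by
    conv_lhs => rw [← τ.disintegrate τ.condKernel]
    rw [Measure.lintegral_compProd hf]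
  have hm : Measurable fun z => ∫⁻ y, f (z, y) ∂(τ.condKernel z) := hf.lintegral_kernel_prod_right'
  rw [h1]
  conv_lhs => rw [← Measure.withDensity_rnDeriv_eq τ.fst volume hac]
  rw [lintegral_withDensity_eq_lintegral_mul _ (Measure.measurable_rnDeriv _ _) hm]
  apply lintegral_congr
  intro z
  rw [Pi.mul_apply, TT, lintegral_smul_measure, smul_eq_mul]

lemma int_TT [IsFiniteMeasure τ] (hac : τ.fst ≪ (volume : Measure ℂ)) {f : ℂ × ℂ → ℝ}
    (hf : Integrable f τ) : Integrable (fun z => ∫ y, f (z, y) ∂(TT τ z)) ∧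
      ∫ p, f p ∂τ = ∫ z, ∫ y, f (z, y) ∂(TT τ z) := by
  have hf' : Integrable f (τ.fst ⊗ₘ τ.condKernel) := by rwa [τ.disintegrate τ.condKernel]
  have h1 : ∫ p, f p ∂τ = ∫ z, ∫ y, f (z, y) ∂(τ.condKernel z) ∂τ.fst := by
    conv_lhs => rw [← τ.disintegrate τ.condKernel]
    rw [Measure.integral_compProd hf']
  have h2 : Integrable (fun z => ∫ y, f (z, y) ∂(τ.condKernel z)) τ.fst := by
    have h4 := MeasureTheory.Integrable.integral_compProd
      (κ := ProbabilityTheory.Kernel.const Unit τ.fst)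
      (η := ProbabilityTheory.Kernel.prodMkLeft Unit τ.condKernel) (a := ()) hf'
    simpa using h4
  have hlt : ∀ᵐ z ∂(volume : Measure ℂ), τ.fst.rnDeriv volume z < ⊤ :=
    Measure.rnDeriv_lt_top _ _
  have h3 : ∀ z, ∫ y, f (z, y) ∂(TT τ z) =
      (τ.fst.rnDeriv volume z).toReal • ∫ y, f (z, y) ∂(τ.condKernel z) := by
    intro z
    rw [TT, integral_smul_measure]
  constructor
  · rw [← Measure.withDensity_rnDeriv_eq τ.fst volume hac,
      integrable_withDensity_iff_integrable_smul' (Measure.measurable_rnDeriv _ _) hlt] at h2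
    simp_rw [h3]
    exact h2
  · rw [h1]
    conv_lhs => rw [← Measure.withDensity_rnDeriv_eq τ.fst volume hac]
    rw [integral_withDensity_eq_integral_toReal_smul (Measure.measurable_rnDeriv _ _) hlt]
    simp_rw [h3]

end Vale.Agent.P247.H514
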