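import Vale.Agent.P247.H514.Slice3

/-!
# P247, Stage 2, package ICUR-INT: `L¹` convergence to the slices.
-/

open Set MeasureTheory Filter Topology Metric
open scoped ENNReal ProbabilityTheory

noncomputable section

namespace Vale.Agent.P247.H514

variable {U V : Set ℂ} {τ : Measure (ℂ × ℂ)} {F e : ℕ → ℂ × ℂ → ℝ}
  {A B : ℕ → ℂ → ℂ × ℂ → ℝ} {C : ℝ≥0∞}

lemma integrable_bdd [IsFiniteMeasure τ] {f : ℂ × ℂ → ℝ} (hf : Continuous f) {L : ℝ}
    (hL : ∀ p, |f p| ≤ L) : Integrable f τ :=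
  Integrable.mono' (integrable_const L) hf.aestronglyMeasurable (Eventually.of_forall hL)

/-- `∫ ψ F n (z,·) → ∫ ψ dT_z` in `L¹(K)`. -/
theorem SliceData.conv_TT (D : SliceData U V τ F e A B C) [IsFiniteMeasure τ] {ψ : ℂ → ℝ}
    (hψ : ContDiff ℝ 1 ψ) (hψc : HasCompactSupport ψ) (hψV : tsupport ψ ⊆ V) {K : Set ℂ}
    (hK : IsCompact K) (hKU : K ⊆ U) :
    Tendsto (fun n => ∫⁻ z in K, ‖uu U V (F n) ψ z - ∫ y, ψ y ∂(TT τ z)‖ₑ) atTop (𝓝 0) := by
  have hac := D.fst_ac
  obtain ⟨K', hK', hKK', hK'U⟩ := exists_compact_between hK D.hU hKU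
  obtain ⟨v, hv, hlim⟩ := D.kol_app hψ hψc hψV hK' hK'U
  obtain ⟨L0, hL0⟩ := bdd_of_cs hψ.continuous hψc
  have hL0n : 0 ≤ L0 := (abs_nonneg _).trans (hL0 0)
  have hK'm : MeasurableSet K' := hK'.measurableSet
  set w : ℂ → ℝ := fun z => ∫ y, ψ y ∂(TT τ z) with hw
  have hψτ : Integrable (fun p : ℂ × ℂ => ψ p.2) τ :=
    integrable_bdd (hψ.continuous.comp continuous_snd) fun p => hL0 _
  have hwint : Integrable w := (int_TT hac hψτ).1
  have hv' : Integrable (K'.indicator v) := hv.integrable_indicator hK'm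
  have hae : ∀ᵐ z : ℂ, z ∈ interior K' → w z - K'.indicator v z = 0 := by
    apply isOpen_interior.ae_eq_zero_of_integral_contDiff_smul_eq_zero
      (f := fun z => w z - K'.indicator v z)
    · exact (hwint.sub hv').locallyIntegrable.locallyIntegrableOn _
    · intro θ hθ hθc hθK
      have hθ' : tsupport θ ⊆ K' := hθK.trans interior_subset
      obtain ⟨M, hM⟩ := bdd_of_cs hθ.continuous hθc
      have h1 : Integrable fun z => θ z * w z :=
        Integrable.bdd_mul (c := M) hwint hθ.continuous.aestronglyMeasurable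
          (Eventually.of_forall hM)
      have h2 : Integrable fun z => θ z * K'.indicator v z :=
        Integrable.bdd_mul (c := M) hv' hθ.continuous.aestronglyMeasurable
          (Eventually.of_forall hM)
      have h3 : ∫ z, θ z * K'.indicator v z = ∫ p, θ p.1 * ψ p.2 ∂τ := by
        rw [← D.lim_eq hψ hψc hψV hK' hK'U hv hlim hθ.continuous hθ',
          ← integral_indicator hK'm]
        congr 1; ext z
        by_cases hz : z ∈ K'
        · rw [indicator_of_mem hz, indicator_of_mem hz]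
        · rw [indicator_of_notMem hz, indicator_of_notMem hz, mul_zero]
      have hθψ : Integrable (fun p : ℂ × ℂ => θ p.1 * ψ p.2) τ :=
        integrable_bdd ((hθ.continuous.comp continuous_fst).mul
          (hψ.continuous.comp continuous_snd)) (L := M * L0) fun p => by
            rw [abs_mul]
            exact mul_le_mul (hM _) (hL0 _) (abs_nonneg _) ((abs_nonneg _).trans (hM 0))
      have h4 : ∫ z, θ z * w z = ∫ p, θ p.1 * ψ p.2 ∂τ := by
        rw [(int_TT hac hθψ).2]
        congr 1; ext z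
        rw [hw, ← integral_const_mul]
      simp_rw [smul_eq_mul, mul_sub]
      rw [integral_sub h1 h2, h3, h4, sub_self]
  refine tendsto_of_tendsto_of_tendsto_of_le_of_le tendsto_const_nhds hlim (fun _ => zero_le) ?_
  intro n
  calc ∫⁻ z in K, ‖uu U V (F n) ψ z - w z‖ₑ
      = ∫⁻ z in K, ‖uu U V (F n) ψ z - v z‖ₑ := by
        apply lintegral_congr_ae
        filter_upwards [ae_restrict_mem hK.measurableSet, ae_restrict_of_ae hae] with z hz hz2
        have h5 := hz2 (hKK' hz)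
        rw [indicator_of_mem (interior_subset (hKK' hz))] at h5
        rw [sub_eq_zero.1 h5]
    _ ≤ ∫⁻ z in K', ‖uu U V (F n) ψ z - v z‖ₑ :=
        lintegral_mono_set (hKK'.trans interior_subset)

lemma TT_univ_lint [IsFiniteMeasure τ] (hac : τ.fst ≪ (volume : Measure ℂ)) :
    ∫⁻ z, TT τ z univ = τ univ := by
  have h := lint_TT hac (f := fun _ => 1) measurable_const
  simp only [lintegral_const, one_mul] at h
  exact h.symm

lemma TT_lint [IsFiniteMeasure τ] (hac : τ.fst ≪ (volume : Measure ℂ)) {s : Set ℂ}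
    (hs : MeasurableSet s) : ∫⁻ z, TT τ z s = τ (univ ×ˢ s) := by
  have hm : MeasurableSet ((univ : Set ℂ) ×ˢ s) := MeasurableSet.univ.prod hs
  have h := lint_TT hac (f := ((univ : Set ℂ) ×ˢ s).indicator 1) (measurable_one.indicator hm)
  rw [lintegral_indicator_one hm] at h
  rw [h]
  apply lintegral_congr
  intro z
  have : (fun y => ((univ : Set ℂ) ×ˢ s).indicator (1 : ℂ × ℂ → ℝ≥0∞) (z, y)) =
      s.indicator 1 := by
    ext y
    by_cases hy : y ∈ s
    · rw [indicator_of_mem hy, indicator_of_mem (show (z, y) ∈ (univ : Set ℂ) ×ˢ s from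
        ⟨mem_univ _, hy⟩)]
      rfl
    · rw [indicator_of_notMem hy, indicator_of_notMem]
      exact fun h => hy h.2
  rw [this, lintegral_indicator_one hs]

lemma TT_finite [IsFiniteMeasure τ] : ∀ᵐ z : ℂ, TT τ z univ < ⊤ := by
  filter_upwards [Measure.rnDeriv_lt_top τ.fst volume] with z hz
  rw [TT_apply, measure_univ, mul_one]
  exact hz

lemma TT_compl [IsFiniteMeasure τ] (hac : τ.fst ≪ (volume : Measure ℂ)) (hV : IsOpen V)
    (hτ : τ (U ×ˢ V)ᶜ = 0) : ∀ᵐ z : ℂ, TT τ z Vᶜ = 0 := by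
  have h := TT_lint hac hV.measurableSet.compl
  have h0 : τ (univ ×ˢ Vᶜ) = 0 := by
    refine measure_mono_null ?_ hτ
    intro p hp hp'
    exact hp.2 hp'.2
  have hm : Measurable fun z => TT τ z Vᶜ :=
    (Measure.measurable_coe hV.measurableSet.compl).comp TT_measurable
  rw [h0, lintegral_eq_zero_iff hm] at h
  exact h


/-- Comparison of the indicator of a square with a cut-off. -/
lemma cmp {μ : Measure ℂ} {c : ℂ} {a b s : ℝ} (hs : s ∈ Ioc a b) {ψ f : ℂ → ℝ}
    (hψm : Measurable ψ) (hψ0 : ∀ x, 0 ≤ ψ x) (hψ1 : ∀ x, ψ x ≤ 1) (hψa : ∀ x ∈ CSq c a, ψ x = 1)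
    (hψb : ∀ x, x ∉ Sq c b → ψ x = 0) (hf : IntegrableOn f (Sq c b) μ) :
    ‖(∫ y in Sq c s, f y ∂μ) - ∫ y, ψ y * f y ∂μ‖ₑ ≤
      ∫⁻ y in Sq c b \ CSq c a, ‖f y‖ₑ ∂μ := by
  have hSs : MeasurableSet (Sq c s) := (isOpen_Sq c s).measurableSet
  have hSb : MeasurableSet (Sq c b) := (isOpen_Sq c b).measurableSet
  have hR : MeasurableSet (Sq c b \ CSq c a) := hSb.diff (isClosed_CSq c a).measurableSet
  have h1 : Integrable ((Sq c s).indicator f) μ :=
    (hf.mono_set (Sq_mono c hs.2)).integrable_indicator hSs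
  have h2 : Integrable (fun y => ψ y * f y) μ := by
    have h3 : (fun y => ψ y * f y) = fun y => ψ y * (Sq c b).indicator f y := by
      ext y
      by_cases hy : y ∈ Sq c b
      · rw [indicator_of_mem hy]
      · rw [hψb y hy, zero_mul, zero_mul]
    rw [h3]
    refine Integrable.bdd_mul (c := 1) (hf.integrable_indicator hSb) hψm.aestronglyMeasurable ?_
    filter_upwards with y
    rw [Real.norm_eq_abs, abs_of_nonneg (hψ0 y)]
    exact hψ1 y
  rw [← integral_indicator hSs, ← integral_sub h1 h2]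
  refine (enorm_integral_le_lintegral_enorm _).trans ?_
  rw [← lintegral_indicator hR]
  apply lintegral_mono
  intro y
  show ‖(Sq c s).indicator f y - ψ y * f y‖ₑ ≤ (Sq c b \ CSq c a).indicator (fun y => ‖f y‖ₑ) y
  by_cases hy : y ∈ Sq c b \ CSq c a
  · rw [indicator_of_mem hy, ← ofReal_norm, ← ofReal_norm]
    apply ENNReal.ofReal_le_ofReal
    by_cases hy' : y ∈ Sq c s
    · rw [indicator_of_mem hy']
      have h4 : f y - ψ y * f y = (1 - ψ y) * f y := by ring
      rw [h4, norm_mul, Real.norm_eq_abs, abs_of_nonneg (by linarith [hψ1 y])]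
      exact mul_le_of_le_one_left (norm_nonneg _) (by linarith [hψ0 y])
    · rw [indicator_of_notMem hy', zero_sub, norm_neg, norm_mul, Real.norm_eq_abs,
        abs_of_nonneg (hψ0 y)]
      exact mul_le_of_le_one_left (norm_nonneg _) (hψ1 y)
  · rw [indicator_of_notMem hy]
    by_cases hyb : y ∈ Sq c b
    · have hya : y ∈ CSq c a := by
        by_contra h
        exact hy ⟨hyb, h⟩
      have hys : y ∈ Sq c s := by
        exact ⟨lt_of_le_of_lt hya.1 hs.1, lt_of_le_of_lt hya.2 hs.1⟩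
      rw [indicator_of_mem hys, hψa y hya, one_mul, sub_self, enorm_zero]
    · have hys : y ∉ Sq c s := fun h => hyb (Sq_mono c hs.2 h)
      rw [indicator_of_notMem hys, hψb y hyb, zero_mul, sub_zero, enorm_zero]

/-- The integral of `F` over a square in the slice. -/
def aa (U V : Set ℂ) (F : ℂ × ℂ → ℝ) (c : ℂ) (z : ℂ) (s : ℝ) : ℝ :=
  ∫ y in Sq c s, (U ×ˢ V).indicator F (z, y)

lemma lint_Ioc_le (f : ℝ → ℝ≥0∞) (s : ℕ → ℝ) (hs : Monotone s) (m : ℕ) :
    ∫⁻ t in Ioc (s 0) (s m), f t ≤ ∑ i ∈ Finset.range m, ∫⁻ t in Ioc (s i) (s (i + 1)), f t := by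
  induction m with
  | zero => simp
  | succ m ih =>
    rw [Finset.sum_range_succ, ← Ioc_union_Ioc_eq_Ioc (hs (Nat.zero_le m)) (hs (Nat.le_succ m))]
    refine (lintegral_union_le _ _ _).trans ?_
    exact add_le_add ih le_rfl

lemma sum_lint_le {μ : Measure ℂ} {f : ℂ → ℝ≥0∞} {R : ℕ → Set ℂ} {W : Set ℂ} (N : ℕ)
    (hR : ∀ i, MeasurableSet (R i)) (hd : Pairwise (Function.onFun Disjoint R))
    (hW : ∀ i < N, R i ⊆ W) :
    ∑ i ∈ Finset.range N, ∫⁻ y in R i, f y ∂μ ≤ ∫⁻ y in W, f y ∂μ := by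
  rw [← lintegral_biUnion_finset (fun i _ j _ hij => hd hij) (fun i _ => hR i)]
  apply lintegral_mono_set
  apply iUnion₂_subset
  intro i hi
  exact hW i (Finset.mem_range.1 hi)

end Vale.Agent.P247.H514
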