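import Vale.Agent.P247.H514.Slice4

/-!
# P247, Stage 2, package ICUR-INT: the integrals over squares converge in `L¹(dz ds)`.
-/

open Set MeasureTheory Filter Topology Metric
open scoped ENNReal ProbabilityTheory

noncomputable section

namespace Vale.Agent.P247.H514

variable {U V : Set ℂ} {τ : Measure (ℂ × ℂ)} {F e : ℕ → ℂ × ℂ → ℝ}
  {A B : ℕ → ℂ → ℂ × ℂ → ℝ} {C : ℝ≥0∞}

lemma CSq_sub_Sq (c : ℂ) {s t : ℝ} (h : s < t) : CSq c s ⊆ Sq c t :=
  fun _ hy => ⟨lt_of_le_of_lt hy.1 h, lt_of_le_of_lt hy.2 h⟩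

lemma Sq_sub_CSq (c : ℂ) (s : ℝ) : Sq c s ⊆ CSq c s :=
  fun _ hy => ⟨hy.1.le, hy.2.le⟩

/-- Pointwise (in `z`) part of the estimate. -/
lemma slice_est {T : Measure ℂ} (hT : T univ < ⊤) {f : ℂ → ℝ} {c : ℂ} {S : ℝ} (hS : 0 < S)
    (hf : IntegrableOn f (Sq c S)) {N : ℕ} (hN : 0 < N) {ψ : ℕ → ℂ → ℝ}
    (hψm : ∀ i, Measurable (ψ i)) (hψ0 : ∀ i x, 0 ≤ ψ i x) (hψ1 : ∀ i x, ψ i x ≤ 1)
    (hψa : ∀ i : ℕ, ∀ x ∈ CSq c ((i : ℝ) * S / N), ψ i x = 1)
    (hψb : ∀ (i : ℕ) (x : ℂ), x ∉ Sq c (((i + 1 : ℕ) : ℝ) * S / N) → ψ i x = 0) :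
    ∫⁻ s in Ioc 0 S, ‖(∫ y in Sq c s, f y) - T.real (Sq c s)‖ₑ ≤
      ENNReal.ofReal (S / N) * ((∫⁻ y in Sq c S, ‖f y‖ₑ) + T univ +
        ∑ i ∈ Finset.range N, ‖(∫ y, ψ i y * f y) - ∫ y, ψ i y ∂T‖ₑ) := by
  have : IsFiniteMeasure T := ⟨hT⟩
  have hNr : (0 : ℝ) < N := by exact_mod_cast hN
  set σ : ℕ → ℝ := fun i => i * S / N with hσ
  have hσmono : Monotone σ := by
    intro i j hij
    have : (i : ℝ) ≤ j := by exact_mod_cast hij
    simp only [hσ]
    gcongr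
  have hσlt : ∀ i, σ i < σ (i + 1) := by
    intro i
    simp only [hσ]
    have : (i : ℝ) < ((i + 1 : ℕ) : ℝ) := by exact_mod_cast Nat.lt_succ_self i
    gcongr
  have hσ0 : σ 0 = 0 := by simp [hσ]
  have hσN : σ N = S := by
    simp only [hσ]
    field_simp
  set R : ℕ → Set ℂ := fun i => Sq c (σ (i + 1)) \ CSq c (σ i) with hR
  have hRm : ∀ i, MeasurableSet (R i) := fun i =>
    (isOpen_Sq c _).measurableSet.diff (isClosed_CSq c _).measurableSet
  have hRd : Pairwise (Function.onFun Disjoint R) := by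
    have key : ∀ i j, i < j → Disjoint (R i) (R j) := by
      intro i j hij
      rw [Set.disjoint_left]
      rintro y ⟨hy1, _⟩ ⟨_, hy2⟩
      exact hy2 (CSq_mono c (hσmono (Nat.succ_le_of_lt hij)) (Sq_sub_CSq c _ hy1))
    intro i j hij
    rcases lt_or_gt_of_ne hij with h | h
    · exact key i j h
    · exact (key j i h).symm
  have hRS : ∀ i < N, R i ⊆ Sq c S := by
    intro i hi y hy
    have h1 : σ (i + 1) ≤ S := by
      rw [← hσN]
      exact hσmono (Nat.succ_le_of_lt hi)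
    exact Sq_mono c h1 hy.1
  -- one interval
  have hone : ∀ i ∈ Finset.range N, ∫⁻ s in Ioc (σ i) (σ (i + 1)),
      ‖(∫ y in Sq c s, f y) - T.real (Sq c s)‖ₑ ≤
      ENNReal.ofReal (S / N) * ((∫⁻ y in R i, ‖f y‖ₑ) + (∫⁻ y in R i, 1 ∂T) +
        ‖(∫ y, ψ i y * f y) - ∫ y, ψ i y ∂T‖ₑ) := by
    intro i hi
    have hi' : σ (i + 1) ≤ S := by
      rw [← hσN]
      exact hσmono (Nat.succ_le_of_lt (Finset.mem_range.1 hi))
    have hpt : ∀ s ∈ Ioc (σ i) (σ (i + 1)),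
        ‖(∫ y in Sq c s, f y) - T.real (Sq c s)‖ₑ ≤
        (∫⁻ y in R i, ‖f y‖ₑ) + (∫⁻ y in R i, 1 ∂T) +
        ‖(∫ y, ψ i y * f y) - ∫ y, ψ i y ∂T‖ₑ := by
      intro s hs
      have h1 := cmp (μ := volume) (f := f) hs (hψm i) (hψ0 i) (hψ1 i) (hψa i) (hψb i)
        (hf.mono_set (Sq_mono c hi'))
      have h2 := cmp (μ := T) (f := fun _ => (1 : ℝ)) hs (hψm i) (hψ0 i) (hψ1 i) (hψa i) (hψb i)
        (integrable_const (1 : ℝ)).integrableOn
      have h3 : ∫ y in Sq c s, (1 : ℝ) ∂T = T.real (Sq c s) := by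
        rw [setIntegral_const, smul_eq_mul, mul_one]
      simp only [mul_one, enorm_one] at h2
      rw [h3] at h2
      have h4 : (∫ y in Sq c s, f y) - T.real (Sq c s) =
          ((∫ y in Sq c s, f y) - ∫ y, ψ i y * f y) + -(T.real (Sq c s) - ∫ y, ψ i y ∂T) +
          ((∫ y, ψ i y * f y) - ∫ y, ψ i y ∂T) := by ring
      rw [h4]
      refine (enorm_add_le _ _).trans (add_le_add ((enorm_add_le _ _).trans ?_) le_rfl)
      rw [enorm_neg]
      exact add_le_add h1 h2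
    calc ∫⁻ s in Ioc (σ i) (σ (i + 1)), ‖(∫ y in Sq c s, f y) - T.real (Sq c s)‖ₑ
        ≤ ∫⁻ s in Ioc (σ i) (σ (i + 1)), ((∫⁻ y in R i, ‖f y‖ₑ) + (∫⁻ y in R i, 1 ∂T) +
          ‖(∫ y, ψ i y * f y) - ∫ y, ψ i y ∂T‖ₑ) := by
          apply lintegral_mono_ae
          filter_upwards [ae_restrict_mem measurableSet_Ioc] with s hs
          exact hpt s hs
      _ = ENNReal.ofReal (S / N) * ((∫⁻ y in R i, ‖f y‖ₑ) + (∫⁻ y in R i, 1 ∂T) +
        ‖(∫ y, ψ i y * f y) - ∫ y, ψ i y ∂T‖ₑ) := by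
          rw [setLIntegral_const, Real.volume_Ioc, mul_comm]
          congr 2
          simp only [hσ]
          push_cast
          ring
  calc ∫⁻ s in Ioc 0 S, ‖(∫ y in Sq c s, f y) - T.real (Sq c s)‖ₑ
      ≤ ∑ i ∈ Finset.range N, ∫⁻ s in Ioc (σ i) (σ (i + 1)),
        ‖(∫ y in Sq c s, f y) - T.real (Sq c s)‖ₑ := by
        have := lint_Ioc_le (fun s => ‖(∫ y in Sq c s, f y) - T.real (Sq c s)‖ₑ) σ hσmono N
        rwa [hσ0, hσN] at this
    _ ≤ ∑ i ∈ Finset.range N, ENNReal.ofReal (S / N) * ((∫⁻ y in R i, ‖f y‖ₑ) +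
          (∫⁻ y in R i, 1 ∂T) + ‖(∫ y, ψ i y * f y) - ∫ y, ψ i y ∂T‖ₑ) :=
        Finset.sum_le_sum hone
    _ = ENNReal.ofReal (S / N) * ((∑ i ∈ Finset.range N, ∫⁻ y in R i, ‖f y‖ₑ) +
          (∑ i ∈ Finset.range N, ∫⁻ y in R i, 1 ∂T) +
          ∑ i ∈ Finset.range N, ‖(∫ y, ψ i y * f y) - ∫ y, ψ i y ∂T‖ₑ) := by
        rw [← Finset.mul_sum, Finset.sum_add_distrib, Finset.sum_add_distrib]
    _ ≤ _ := by
        gcongr
        · exact sum_lint_le N hRm hRd hRS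
        · refine (sum_lint_le (W := univ) N hRm hRd fun i _ => subset_univ _).trans ?_
          simp

/-- `∫_{Sq c s} F n (z, ·) → T_z (Sq c s)` in `L¹(K × (0, S])`. -/
theorem SliceData.conv_sq (D : SliceData U V τ F e A B C) [IsFiniteMeasure τ] {K : Set ℂ}
    (hK : IsCompact K) (hKU : K ⊆ U) {c : ℂ} {S : ℝ} (hS : 0 < S) (hcS : CSq c S ⊆ V) :
    Tendsto (fun n => ∫⁻ z in K, ∫⁻ s in Ioc 0 S,
      ‖aa U V (F n) c z s - (TT τ z).real (Sq c s)‖ₑ) atTop (𝓝 0) := by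
  have hac := D.fst_ac
  have hKm := hK.measurableSet
  -- the bound for every number `N` of intervals
  have hbound : ∀ N : ℕ, 0 < N → ∃ δ : ℕ → ℝ≥0∞, Tendsto δ atTop (𝓝 0) ∧ ∀ n,
      ∫⁻ z in K, ∫⁻ s in Ioc 0 S, ‖aa U V (F n) c z s - (TT τ z).real (Sq c s)‖ₑ ≤
      ENNReal.ofReal (S / N) * (C + τ univ + δ n) := by
    intro N hN
    have hNr : (0 : ℝ) < N := by exact_mod_cast hN
    have hcut : ∀ i : ℕ, ∃ ψ : ℂ → ℝ, ContDiff ℝ 1 ψ ∧ (∀ x, 0 ≤ ψ x) ∧ (∀ x, ψ x ≤ 1) ∧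
        (∀ x ∈ CSq c (i * S / N), ψ x = 1) ∧ ∀ x, x ∉ Sq c ((i + 1 : ℕ) * S / N) → ψ x = 0 := by
      intro i
      apply cutoff (isClosed_CSq c _) (isOpen_Sq c _)
      apply CSq_sub_Sq
      have : (i : ℝ) < ((i + 1 : ℕ) : ℝ) := by exact_mod_cast Nat.lt_succ_self i
      gcongr
    choose ψ hψ hψ0 hψ1 hψa hψb using hcut
    have hle : ∀ i < N, ((i + 1 : ℕ) : ℝ) * S / N ≤ S := by
      intro i hi
      rw [div_le_iff₀ hNr, mul_comm S]
      have : ((i + 1 : ℕ) : ℝ) ≤ N := by exact_mod_cast hi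
      gcongr
    have htS : ∀ i < N, tsupport (ψ i) ⊆ CSq c S := by
      intro i hi
      refine closure_minimal ?_ (isClosed_CSq c S)
      intro x hx
      by_contra h
      apply hx
      apply hψb i
      intro h'
      exact h (Sq_sub_CSq c S (Sq_mono c (hle i hi) h'))
    have hcs : ∀ i < N, HasCompactSupport (ψ i) := fun i hi =>
      (isCompact_CSq c S).of_isClosed_subset (isClosed_tsupport _) (htS i hi)
    refine ⟨fun n => ∑ i ∈ Finset.range N, ∫⁻ z in K,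
      ‖uu U V (F n) (ψ i) z - ∫ y, ψ i y ∂(TT τ z)‖ₑ, ?_, ?_⟩
    · have : (0 : ℝ≥0∞) = ∑ i ∈ Finset.range N, 0 := by simp
      rw [this]
      apply tendsto_finsetSum
      intro i hi
      have hi' := Finset.mem_range.1 hi
      exact D.conv_TT (hψ i) (hcs i hi') ((htS i hi').trans hcS) hK hKU
    · intro n
      have hpt : ∀ᵐ z ∂(volume.restrict K), ∫⁻ s in Ioc 0 S,
          ‖aa U V (F n) c z s - (TT τ z).real (Sq c s)‖ₑ ≤
          ENNReal.ofReal (S / N) * ((gg U V (e n) z + TT τ z univ) +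
            ∑ i ∈ Finset.range N, ‖uu U V (F n) (ψ i) z - ∫ y, ψ i y ∂(TT τ z)‖ₑ) := by
        filter_upwards [ae_restrict_mem hKm, ae_restrict_of_ae (TT_finite (τ := τ))] with z hz hfin
        have hzU := hKU hz
        have hfint : IntegrableOn (fun y => (U ×ˢ V).indicator (F n) (z, y)) (Sq c S) := by
          have h1 : IntegrableOn (fun y => F n (z, y)) (CSq c S) := by
            apply ContinuousOn.integrableOn_compact (isCompact_CSq c S)
            refine (D.cF n).continuousOn.comp (by fun_prop) ?_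
            intro y hy
            exact ⟨hzU, hcS hy⟩
          refine (h1.congr_fun ?_ (isClosed_CSq c S).measurableSet).mono_set (Sq_sub_CSq c S)
          intro y hy
          simp only
          rw [indicator_of_mem (show (z, y) ∈ U ×ˢ V from ⟨hzU, hcS hy⟩)]
        refine (slice_est hfin hS hfint hN (fun i => (hψ i).continuous.measurable) hψ0 hψ1
          hψa hψb).trans ?_
        gcongr ENNReal.ofReal (S / N) * (?_ + _ + _)
        rw [gg_eq D.hV hzU]
        refine (lintegral_mono_set ((Sq_sub_CSq c S).trans hcS)).trans ?_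
        apply lintegral_mono_ae
        filter_upwards [ae_restrict_mem D.hV.measurableSet] with y hy
        rw [indicator_of_mem (show (z, y) ∈ U ×ˢ V from ⟨hzU, hy⟩), ← ofReal_norm]
        exact ENNReal.ofReal_le_ofReal (D.Fe n _ ⟨hzU, hy⟩)
      have hm1 : Measurable fun z => gg U V (e n) z + TT τ z univ :=
        (gg_measurable D.hU D.hV (D.ce n)).add
          ((Measure.measurable_coe MeasurableSet.univ).comp TT_measurable)
      have hm2 : ∀ i ∈ Finset.range N, AEMeasurable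
          (fun z => ‖uu U V (F n) (ψ i) z - ∫ y, ψ i y ∂(TT τ z)‖ₑ) (volume.restrict K) := by
        intro i hi
        have hi' := Finset.mem_range.1 hi
        have h1 : AEMeasurable (fun z => ∫ y, ψ i y ∂(TT τ z)) := by
          have h2 : Integrable (fun p : ℂ × ℂ => ψ i p.2) τ := by
            refine integrable_bdd ((hψ i).continuous.comp continuous_snd) (L := 1) fun p => ?_
            rw [abs_of_nonneg (hψ0 i _)]
            exact hψ1 i _
          exact (int_TT hac h2).1.aemeasurable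
        exact (((uu_measurable D.hU D.hV (D.cF n).continuousOn
          (hψ i).continuous).aemeasurable.sub h1).enorm).restrict
      refine (lintegral_mono_ae hpt).trans ?_
      rw [lintegral_const_mul' _ _ ENNReal.ofReal_ne_top, lintegral_add_left hm1,
        lintegral_add_left (gg_measurable D.hU D.hV (D.ce n)), lintegral_finsetSum' _ hm2]
      gcongr
      · refine (lintegral_mono_set hKU).trans ?_
        rw [gg_int D.hU D.hV (D.ce n)]
        exact D.eC n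
      · refine (setLIntegral_le_lintegral _ _).trans ?_
        rw [TT_univ_lint hac]
  -- conclusion
  rw [ENNReal.tendsto_nhds_zero]
  intro ε hε
  have hCτ : C + τ univ + 1 ≠ ⊤ := by
    simp only [ne_eq, ENNReal.add_eq_top, not_or]
    exact ⟨⟨D.hC, measure_ne_top τ _⟩, ENNReal.one_ne_top⟩
  obtain ⟨N, hN, hNε⟩ : ∃ N : ℕ, 0 < N ∧ ENNReal.ofReal (S / N) * (C + τ univ + 1) ≤ ε := by
    have h1 : Tendsto (fun N : ℕ => ENNReal.ofReal (S / N) * (C + τ univ + 1)) atTop (𝓝 0) := by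
      have h2 : Tendsto (fun N : ℕ => ENNReal.ofReal (S / N)) atTop (𝓝 (ENNReal.ofReal 0)) :=
        ENNReal.tendsto_ofReal (tendsto_const_div_atTop_nhds_zero_nat S)
      have h3 := ENNReal.Tendsto.mul_const (b := C + τ univ + 1) h2 (Or.inr hCτ)
      rwa [ENNReal.ofReal_zero, zero_mul] at h3
    have h4 := (h1.eventually_le_const hε).and (eventually_gt_atTop 0)
    obtain ⟨N, h5, h6⟩ := h4.exists
    exact ⟨N, h6, h5⟩
  obtain ⟨δ, hδ, hb⟩ := hbound N hN
  filter_upwards [hδ.eventually_le_const zero_lt_one] with n hn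
  refine (hb n).trans (le_trans ?_ hNε)
  gcongr

end Vale.Agent.P247.H514
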