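import Vale.Agent.P247.H514.Slice5

/-!
# P247, Stage 2, package ICUR-INT: almost every square has integer mass.
-/

open Set MeasureTheory Filter Topology Metric
open scoped ENNReal ProbabilityTheory

noncomputable section

namespace Vale.Agent.P247.H514

variable {U V : Set ℂ} {τ : Measure (ℂ × ℂ)} {F e : ℕ → ℂ × ℂ → ℝ}
  {A B : ℕ → ℂ → ℂ × ℂ → ℝ} {C : ℝ≥0∞}

/-- Fubini in the coordinates `c + x + i y`. -/
lemma lint_fubini {f : ℂ → ℝ≥0∞} (hf : Measurable f) (c : ℂ) :
    ∫⁻ s : ℝ, ∫⁻ t : ℝ, f (c + (t + s * Complex.I)) = ∫⁻ y, f y := by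
  have h1 : ∫⁻ y, f y = ∫⁻ y, f (c + y) := (lintegral_add_left_eq_self f c).symm
  have hm : Measurable fun y => f (c + y) := hf.comp (measurable_const_add c)
  have h2 := Complex.volume_preserving_equiv_real_prod.symm.lintegral_comp hm
  have hm2 : Measurable fun p : ℝ × ℝ => f (c + Complex.measurableEquivRealProd.symm p) :=
    hm.comp Complex.measurableEquivRealProd.symm.measurable
  rw [h1, ← h2, Measure.volume_eq_prod, lintegral_prod_symm' _ hm2]
  apply lintegral_congr; intro s
  apply lintegral_congr; intro t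
  congr 2
  apply Complex.ext <;> simp [Complex.measurableEquivRealProd_symm_apply]

lemma lint_fubini' {f : ℂ → ℝ≥0∞} (hf : Measurable f) (c : ℂ) :
    ∫⁻ s : ℝ, ∫⁻ t : ℝ, f (c + (s + t * Complex.I)) = ∫⁻ y, f y := by
  rw [← lint_fubini hf c, lintegral_lintegral_swap]
  apply Measurable.aemeasurable
  apply hf.comp
  fun_prop

lemma lint_neg (f : ℝ → ℝ≥0∞) : ∫⁻ s, f (-s) = ∫⁻ s, f s :=
  (Measure.measurePreserving_neg (volume : Measure ℝ)).lintegral_comp_emb
    (MeasurableEquiv.neg ℝ).measurableEmbedding f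

/-- The upper bound of the boundary energy. -/
def BB (f : ℂ → ℝ≥0∞) (c : ℂ) (s : ℝ) : ℝ≥0∞ :=
  (∫⁻ t : ℝ, f (c + (t + s * Complex.I))) + (∫⁻ t : ℝ, f (c + (t - s * Complex.I))) +
  (∫⁻ t : ℝ, f (c + (s + t * Complex.I))) + (∫⁻ t : ℝ, f (c + (-s + t * Complex.I)))

lemma BB_measurable {f : ℂ → ℝ≥0∞} (hf : Measurable f) (c : ℂ) : Measurable (BB f c) := by
  have h1 : Measurable fun s : ℝ => ∫⁻ t : ℝ, f (c + (t + s * Complex.I)) := by
    have : Measurable fun p : ℝ × ℝ => f (c + (p.2 + p.1 * Complex.I)) := hf.comp (by fun_prop)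
    exact this.lintegral_prod_right'
  have h2 : Measurable fun s : ℝ => ∫⁻ t : ℝ, f (c + (t - s * Complex.I)) := by
    have : Measurable fun p : ℝ × ℝ => f (c + (p.2 - p.1 * Complex.I)) := hf.comp (by fun_prop)
    exact this.lintegral_prod_right'
  have h3 : Measurable fun s : ℝ => ∫⁻ t : ℝ, f (c + (s + t * Complex.I)) := by
    have : Measurable fun p : ℝ × ℝ => f (c + (p.1 + p.2 * Complex.I)) := hf.comp (by fun_prop)
    exact this.lintegral_prod_right'
  have h4 : Measurable fun s : ℝ => ∫⁻ t : ℝ, f (c + (-s + t * Complex.I)) := by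
    have : Measurable fun p : ℝ × ℝ => f (c + (-p.1 + p.2 * Complex.I)) := hf.comp (by fun_prop)
    exact this.lintegral_prod_right'
  exact ((h1.add h2).add h3).add h4

lemma BB_lint {f : ℂ → ℝ≥0∞} (hf : Measurable f) (c : ℂ) :
    ∫⁻ s, BB f c s = 4 * ∫⁻ y, f y := by
  have h1 : Measurable fun s : ℝ => ∫⁻ t : ℝ, f (c + (t + s * Complex.I)) := by
    have : Measurable fun p : ℝ × ℝ => f (c + (p.2 + p.1 * Complex.I)) := hf.comp (by fun_prop)
    exact this.lintegral_prod_right'
  have h2 : Measurable fun s : ℝ => ∫⁻ t : ℝ, f (c + (t - s * Complex.I)) := by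
    have : Measurable fun p : ℝ × ℝ => f (c + (p.2 - p.1 * Complex.I)) := hf.comp (by fun_prop)
    exact this.lintegral_prod_right'
  have h3 : Measurable fun s : ℝ => ∫⁻ t : ℝ, f (c + (s + t * Complex.I)) := by
    have : Measurable fun p : ℝ × ℝ => f (c + (p.1 + p.2 * Complex.I)) := hf.comp (by fun_prop)
    exact this.lintegral_prod_right'
  have e1 := lint_fubini hf c
  have e3 := lint_fubini' hf c
  have e2 : ∫⁻ s : ℝ, ∫⁻ t : ℝ, f (c + (t - s * Complex.I)) = ∫⁻ y, f y := by
    rw [← e1, ← lint_neg fun s => ∫⁻ t : ℝ, f (c + (t + s * Complex.I))]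
    apply lintegral_congr; intro s
    apply lintegral_congr; intro t
    congr 2
    push_cast
    ring
  have e4 : ∫⁻ s : ℝ, ∫⁻ t : ℝ, f (c + (-s + t * Complex.I)) = ∫⁻ y, f y := by
    rw [← e3, ← lint_neg fun s => ∫⁻ t : ℝ, f (c + (s + t * Complex.I))]
    apply lintegral_congr; intro s
    apply lintegral_congr; intro t
    congr 2
    push_cast
    ring
  have h12 : Measurable fun s : ℝ => (∫⁻ t : ℝ, f (c + (t + s * Complex.I))) +
      ∫⁻ t : ℝ, f (c + (t - s * Complex.I)) := h1.add h2
  have h123 : Measurable fun s : ℝ => (∫⁻ t : ℝ, f (c + (t + s * Complex.I))) +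
      (∫⁻ t : ℝ, f (c + (t - s * Complex.I))) + ∫⁻ t : ℝ, f (c + (s + t * Complex.I)) := h12.add h3
  calc ∫⁻ s, BB f c s
      = (∫⁻ s : ℝ, ∫⁻ t : ℝ, f (c + (t + s * Complex.I))) +
        (∫⁻ s : ℝ, ∫⁻ t : ℝ, f (c + (t - s * Complex.I))) +
        (∫⁻ s : ℝ, ∫⁻ t : ℝ, f (c + (s + t * Complex.I))) +
        ∫⁻ s : ℝ, ∫⁻ t : ℝ, f (c + (-s + t * Complex.I)) := by
        rw [← lintegral_add_left h1, ← lintegral_add_left h12, ← lintegral_add_left h123]
        rfl
    _ = 4 * ∫⁻ y, f y := by
        rw [e1, e2, e3, e4]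
        ring

lemma side_le {V : Set ℂ} {e : ℂ → ℝ} (he0 : ∀ y ∈ V, 0 ≤ e y) {γ : ℝ → ℂ} {s : ℝ} (hs : 0 ≤ s)
    (hγ : ∀ t ∈ Icc (-s) s, γ t ∈ V) :
    ENNReal.ofReal (∫ t in (-s)..s, e (γ t)) ≤ ∫⁻ t, ENNReal.ofReal (V.indicator e (γ t)) := by
  rw [intervalIntegral.integral_of_le (by linarith)]
  calc ENNReal.ofReal (∫ t in Ioc (-s) s, e (γ t)) ≤ ‖∫ t in Ioc (-s) s, e (γ t)‖ₑ := by
        rw [← ofReal_norm]
        exact ENNReal.ofReal_le_ofReal (le_abs_self _)
    _ ≤ ∫⁻ t in Ioc (-s) s, ‖e (γ t)‖ₑ := enorm_integral_le_lintegral_enorm _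
    _ = ∫⁻ t in Ioc (-s) s, ENNReal.ofReal (V.indicator e (γ t)) := by
        apply setLIntegral_congr_fun measurableSet_Ioc
        intro t ht
        have h1 := hγ t ⟨ht.1.le, ht.2⟩
        simp only
        rw [indicator_of_mem h1, ← ofReal_norm, Real.norm_eq_abs, abs_of_nonneg (he0 _ h1)]
    _ ≤ _ := setLIntegral_le_lintegral _ _

lemma bdE_nonneg {V : Set ℂ} {e : ℂ → ℝ} (he0 : ∀ y ∈ V, 0 ≤ e y) {c : ℂ} {s : ℝ} (hs : 0 ≤ s)
    (hV : CSq c s ⊆ V) : 0 ≤ bdE e c s := by
  have h : ∀ γ : ℝ → ℂ, (∀ t ∈ Icc (-s) s, γ t ∈ CSq c s) → 0 ≤ ∫ t in (-s)..s, e (γ t) := by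
    intro γ hγ
    apply intervalIntegral.integral_nonneg (by linarith)
    intro t ht
    exact he0 _ (hV (hγ t ht))
  refine add_nonneg (add_nonneg (add_nonneg (h _ ?_) (h _ ?_)) (h _ ?_)) (h _ ?_) <;>
  · intro t ht
    have h1 : |t| ≤ s := abs_le.2 ⟨ht.1, ht.2⟩
    constructor <;> simp [h1, abs_of_nonneg hs]

lemma bdE_le {V : Set ℂ} {e : ℂ → ℝ} (he0 : ∀ y ∈ V, 0 ≤ e y) {c : ℂ} {s : ℝ} (hs : 0 ≤ s)
    (hV : CSq c s ⊆ V) :
    ENNReal.ofReal (bdE e c s) ≤ BB (fun y => ENNReal.ofReal (V.indicator e y)) c s := by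
  have h : ∀ γ : ℝ → ℂ, (∀ t ∈ Icc (-s) s, γ t ∈ CSq c s) →
      ENNReal.ofReal (∫ t in (-s)..s, e (γ t)) ≤ ∫⁻ t, ENNReal.ofReal (V.indicator e (γ t)) := by
    intro γ hγ
    exact side_le he0 hs fun t ht => hV (hγ t ht)
  refine (ENNReal.ofReal_add_le).trans (add_le_add ((ENNReal.ofReal_add_le).trans
    (add_le_add ((ENNReal.ofReal_add_le).trans (add_le_add (h _ ?_) (h _ ?_))) (h _ ?_)))
    (h _ ?_)) <;>
  · intro t ht
    have h1 : |t| ≤ s := abs_le.2 ⟨ht.1, ht.2⟩
    constructor <;> simp [h1, abs_of_nonneg hs]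


/-- The pointwise sine estimate. -/
lemma sin_est {a ε M b : ℝ} (hM : 0 < M) (hb : 0 ≤ b) (hε : 0 ≤ ε)
    (h : b ≤ M → ∃ k : ℤ, |a - k| ≤ ε) : |Real.sin (Real.pi * a)| ≤ Real.pi * ε + b / M := by
  by_cases hbM : b ≤ M
  · obtain ⟨k, hk⟩ := h hbM
    have h1 : |Real.sin (Real.pi * a)| = |Real.sin (Real.pi * a - k * Real.pi)| := by
      rw [Real.sin_sub_int_mul_pi, abs_mul]
      have : |(-1 : ℝ) ^ k| = 1 := by
        rw [abs_zpow, abs_neg, abs_one, one_zpow]
      rw [this, one_mul]
    have h2 : |Real.sin (Real.pi * a - k * Real.pi)| ≤ |Real.pi * a - k * Real.pi| := by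
      have := Real.abs_sin_sub_sin_le (Real.pi * a - k * Real.pi) 0
      simpa using this
    have h3 : |Real.pi * a - k * Real.pi| = Real.pi * |a - k| := by
      have : Real.pi * a - k * Real.pi = Real.pi * (a - k) := by ring
      rw [this, abs_mul, abs_of_pos Real.pi_pos]
    calc |Real.sin (Real.pi * a)| ≤ Real.pi * |a - k| := by rw [h1, ← h3]; exact h2
      _ ≤ Real.pi * ε := by
        gcongr
      _ ≤ Real.pi * ε + b / M := by
        have : 0 ≤ b / M := by positivity
        linarith
  · have h1 : 1 ≤ b / M := by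
      rw [one_le_div hM]
      exact (not_le.1 hbM).le
    have h2 : 0 ≤ Real.pi * ε := by positivity
    exact (Real.abs_sin_le_one _).trans (by linarith)

lemma SliceData.e_nonneg (D : SliceData U V τ F e A B C) (n : ℕ) {z : ℂ} (hz : z ∈ U) :
    ∀ y ∈ V, 0 ≤ e n (z, y) := fun y hy => (abs_nonneg _).trans (D.Fe n (z, y) ⟨hz, hy⟩)

/-- For almost every `(z, s)` the square has integer mass, first form. -/
theorem SliceData.sin_zero (D : SliceData U V τ F e A B C) [IsFiniteMeasure τ] {K : Set ℂ}
    (hK : IsCompact K) (hKU : K ⊆ U) {c : ℂ} {S : ℝ} (hS : 0 < S) (hcS : CSq c S ⊆ V) :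
    ∫⁻ z in K, ∫⁻ s in Ioc 0 S, ‖Real.sin (Real.pi * (TT τ z).real (Sq c s))‖ₑ = 0 := by
  have hKm := hK.measurableSet
  set Φ := ∫⁻ z in K, ∫⁻ s in Ioc 0 S, ‖Real.sin (Real.pi * (TT τ z).real (Sq c s))‖ₑ with hΦ
  have hstep : ∀ ε M : ℝ, 0 < ε → 0 < M → Φ ≤
      volume K * (ENNReal.ofReal (Real.pi * ε) * ENNReal.ofReal S + ENNReal.ofReal ε) +
        ENNReal.ofReal (1 / M) * (4 * C) := by
    intro ε M hε hM
    have hev : ∀ᶠ n in atTop, Φ ≤
        volume K * (ENNReal.ofReal (Real.pi * ε) * ENNReal.ofReal S + ENNReal.ofReal ε) +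
        ENNReal.ofReal (1 / M) * (4 * C) + ENNReal.ofReal Real.pi *
          ∫⁻ z in K, ∫⁻ s in Ioc 0 S, ‖aa U V (F n) c z s - (TT τ z).real (Sq c s)‖ₑ := by
      filter_upwards [D.vor M ε hM hε] with n hn
      -- the estimate on one slice
      have hz : ∀ z ∈ K, ∫⁻ s in Ioc 0 S, ‖Real.sin (Real.pi * (TT τ z).real (Sq c s))‖ₑ ≤
          (ENNReal.ofReal (Real.pi * ε) * ENNReal.ofReal S + ENNReal.ofReal ε) +
          ENNReal.ofReal (1 / M) * (4 * gg U V (e n) z) +
          ENNReal.ofReal Real.pi *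
            ∫⁻ s in Ioc 0 S, ‖aa U V (F n) c z s - (TT τ z).real (Sq c s)‖ₑ := by
        intro z hz
        have hzU := hKU hz
        have he0 := D.e_nonneg n hzU
        set f : ℂ → ℝ≥0∞ := fun y => ENNReal.ofReal (V.indicator (fun y => e n (z, y)) y) with hf
        have hfm : Measurable f := by
          have h1 : (fun y => V.indicator (fun y => e n (z, y)) y) =
              fun y => (U ×ˢ V).indicator (e n) (z, y) := by
            ext y
            by_cases hy : y ∈ V
            · rw [indicator_of_mem hy, indicator_of_mem (show (z, y) ∈ U ×ˢ V from ⟨hzU, hy⟩)]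
            · rw [indicator_of_notMem hy, indicator_of_notMem (fun h => hy h.2)]
          have h2 : Measurable fun y => (U ×ˢ V).indicator (e n) (z, y) :=
            (measurable_ind D.hU D.hV (D.ce n)).comp (measurable_const.prodMk measurable_id)
          rw [← h1] at h2
          exact h2.ennreal_ofReal
        have hfint : ∫⁻ y, f y = gg U V (e n) z := by
          rw [gg_eq D.hV hzU, ← lintegral_indicator D.hV.measurableSet]
          apply lintegral_congr
          intro y
          by_cases hy : y ∈ V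
          · rw [hf, indicator_of_mem hy]
            simp only
            rw [indicator_of_mem hy]
          · rw [hf, indicator_of_notMem hy]
            simp only
            rw [indicator_of_notMem hy, ENNReal.ofReal_zero]
        have hpt : ∀ s ∈ Ioc 0 S, ‖Real.sin (Real.pi * (TT τ z).real (Sq c s))‖ₑ ≤
            (ENNReal.ofReal (Real.pi * ε) + (Iio ε).indicator 1 s) +
            ENNReal.ofReal (1 / M) * BB f c s +
            ENNReal.ofReal Real.pi * ‖aa U V (F n) c z s - (TT τ z).real (Sq c s)‖ₑ := by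
          intro s hs
          have hsV : CSq c s ⊆ V := (CSq_mono c hs.2).trans hcS
          have haa : aa U V (F n) c z s = ∫ y in Sq c s, F n (z, y) := by
            apply setIntegral_congr_fun (isOpen_Sq c s).measurableSet
            intro y hy
            exact indicator_of_mem (show (z, y) ∈ U ×ˢ V from ⟨hzU, hsV (Sq_sub_CSq c s hy)⟩) _
          have h1 : ‖Real.sin (Real.pi * (TT τ z).real (Sq c s))‖ₑ ≤
              ‖Real.sin (Real.pi * aa U V (F n) c z s)‖ₑ +
              ENNReal.ofReal Real.pi * ‖aa U V (F n) c z s - (TT τ z).real (Sq c s)‖ₑ := by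
            have h2 : Real.sin (Real.pi * (TT τ z).real (Sq c s)) =
                Real.sin (Real.pi * aa U V (F n) c z s) +
                -(Real.sin (Real.pi * aa U V (F n) c z s) -
                  Real.sin (Real.pi * (TT τ z).real (Sq c s))) := by ring
            rw [h2]
            refine (enorm_add_le _ _).trans (add_le_add le_rfl ?_)
            rw [enorm_neg, ← ofReal_norm, ← ofReal_norm, ← ENNReal.ofReal_mul Real.pi_pos.le]
            apply ENNReal.ofReal_le_ofReal
            refine (Real.abs_sin_sub_sin_le _ _).trans ?_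
            rw [← mul_sub, abs_mul, abs_of_pos Real.pi_pos, Real.norm_eq_abs]
          have hb0 : 0 ≤ bdE (fun y => e n (z, y)) c s := bdE_nonneg he0 hs.1.le hsV
          have hbl := bdE_le he0 hs.1.le hsV
          have h3 : ‖Real.sin (Real.pi * aa U V (F n) c z s)‖ₑ ≤
              (ENNReal.ofReal (Real.pi * ε) + (Iio ε).indicator 1 s) +
              ENNReal.ofReal (1 / M) * BB f c s := by
            by_cases hsε : s < ε
            · rw [indicator_of_mem (show s ∈ Iio ε from hsε), Pi.one_apply]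
              calc ‖Real.sin (Real.pi * aa U V (F n) c z s)‖ₑ ≤ 1 := by
                    rw [← ofReal_norm, ← ENNReal.ofReal_one]
                    exact ENNReal.ofReal_le_ofReal (Real.abs_sin_le_one _)
                _ ≤ ENNReal.ofReal (Real.pi * ε) + 1 := le_add_self
                _ ≤ _ := le_self_add
            · have hεs : ε ≤ s := not_lt.1 hsε
              have h4 := sin_est (a := aa U V (F n) c z s) (ε := ε) hM hb0 hε.le (by
                intro h5
                obtain ⟨k, hk⟩ := hn z hzU c s hεs hsV h5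
                exact ⟨k, by rwa [haa]⟩)
              calc ‖Real.sin (Real.pi * aa U V (F n) c z s)‖ₑ
                  ≤ ENNReal.ofReal (Real.pi * ε + bdE (fun y => e n (z, y)) c s / M) := by
                    rw [← ofReal_norm]
                    exact ENNReal.ofReal_le_ofReal h4
                _ = ENNReal.ofReal (Real.pi * ε) +
                    ENNReal.ofReal (1 / M) * ENNReal.ofReal (bdE (fun y => e n (z, y)) c s) := by
                    rw [ENNReal.ofReal_add (by positivity) (by positivity),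
                      ← ENNReal.ofReal_mul (by positivity)]
                    congr 2
                    ring
                _ ≤ _ := by
                    gcongr
                    · exact le_self_add
          calc _ ≤ _ := h1
            _ ≤ _ := by gcongr
        have hm1 : Measurable fun s : ℝ => ENNReal.ofReal (Real.pi * ε) +
            (Iio ε).indicator (1 : ℝ → ℝ≥0∞) s :=
          (measurable_one.indicator measurableSet_Iio).const_add _
        have hm2 : Measurable fun s : ℝ => ENNReal.ofReal (1 / M) * BB f c s :=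
          (BB_measurable hfm c).const_mul _
        have hm3 : Measurable fun s : ℝ => ENNReal.ofReal (Real.pi * ε) +
            (Iio ε).indicator (1 : ℝ → ℝ≥0∞) s + ENNReal.ofReal (1 / M) * BB f c s :=
          hm1.add hm2
        calc ∫⁻ s in Ioc 0 S, ‖Real.sin (Real.pi * (TT τ z).real (Sq c s))‖ₑ
            ≤ ∫⁻ s in Ioc 0 S, ((ENNReal.ofReal (Real.pi * ε) + (Iio ε).indicator 1 s) +
            ENNReal.ofReal (1 / M) * BB f c s +
            ENNReal.ofReal Real.pi * ‖aa U V (F n) c z s - (TT τ z).real (Sq c s)‖ₑ) := by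
              apply lintegral_mono_ae
              filter_upwards [ae_restrict_mem measurableSet_Ioc] with s hs
              exact hpt s hs
          _ = (∫⁻ s in Ioc 0 S, ENNReal.ofReal (Real.pi * ε)) +
              (∫⁻ s in Ioc 0 S, (Iio ε).indicator 1 s) +
              (∫⁻ s in Ioc 0 S, ENNReal.ofReal (1 / M) * BB f c s) +
              ∫⁻ s in Ioc 0 S, ENNReal.ofReal Real.pi *
                ‖aa U V (F n) c z s - (TT τ z).real (Sq c s)‖ₑ := by
              rw [lintegral_add_left hm3, lintegral_add_left hm1,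
                lintegral_add_left measurable_const]
          _ ≤ (ENNReal.ofReal (Real.pi * ε) * ENNReal.ofReal S + ENNReal.ofReal ε) +
              ENNReal.ofReal (1 / M) * (4 * gg U V (e n) z) +
              ENNReal.ofReal Real.pi *
                ∫⁻ s in Ioc 0 S, ‖aa U V (F n) c z s - (TT τ z).real (Sq c s)‖ₑ := by
              gcongr
              · rw [setLIntegral_const, Real.volume_Ioc, sub_zero]
              · rw [lintegral_indicator_one measurableSet_Iio,
                  Measure.restrict_apply measurableSet_Iio]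
                calc volume (Iio ε ∩ Ioc 0 S) ≤ volume (Ioc 0 ε) := by
                      apply measure_mono
                      rintro s ⟨h1, h2⟩
                      exact ⟨h2.1, (show s < ε from h1).le⟩
                  _ = ENNReal.ofReal ε := by rw [Real.volume_Ioc, sub_zero]
              · rw [lintegral_const_mul _ (BB_measurable hfm c)]
                gcongr
                refine (setLIntegral_le_lintegral _ _).trans ?_
                rw [BB_lint hfm c, hfint]
              · rw [lintegral_const_mul' _ _ ENNReal.ofReal_ne_top]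
      have hgm : Measurable fun z => (ENNReal.ofReal (Real.pi * ε) * ENNReal.ofReal S +
          ENNReal.ofReal ε) + ENNReal.ofReal (1 / M) * (4 * gg U V (e n) z) :=
        measurable_const.add (((gg_measurable D.hU D.hV (D.ce n)).const_mul 4).const_mul _)
      calc Φ ≤ ∫⁻ z in K, ((ENNReal.ofReal (Real.pi * ε) * ENNReal.ofReal S +
            ENNReal.ofReal ε) + ENNReal.ofReal (1 / M) * (4 * gg U V (e n) z) +
            ENNReal.ofReal Real.pi *
            ∫⁻ s in Ioc 0 S, ‖aa U V (F n) c z s - (TT τ z).real (Sq c s)‖ₑ) := by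
            apply lintegral_mono_ae
            filter_upwards [ae_restrict_mem hKm] with z hz'
            exact hz z hz'
        _ = (∫⁻ z in K, (ENNReal.ofReal (Real.pi * ε) * ENNReal.ofReal S + ENNReal.ofReal ε)) +
            (∫⁻ z in K, ENNReal.ofReal (1 / M) * (4 * gg U V (e n) z)) +
            ∫⁻ z in K, ENNReal.ofReal Real.pi *
            ∫⁻ s in Ioc 0 S, ‖aa U V (F n) c z s - (TT τ z).real (Sq c s)‖ₑ := by
            rw [lintegral_add_left hgm, lintegral_add_left measurable_const]
        _ ≤ _ := by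
            gcongr
            · rw [setLIntegral_const, mul_comm]
            · rw [lintegral_const_mul _ ((gg_measurable D.hU D.hV (D.ce n)).const_mul 4),
                lintegral_const_mul _ (gg_measurable D.hU D.hV (D.ce n))]
              gcongr
              refine (lintegral_mono_set hKU).trans ?_
              rw [gg_int D.hU D.hV (D.ce n)]
              exact D.eC n
            · rw [lintegral_const_mul' _ _ ENNReal.ofReal_ne_top]
    have hlim : Tendsto (fun n => volume K * (ENNReal.ofReal (Real.pi * ε) * ENNReal.ofReal S +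
        ENNReal.ofReal ε) + ENNReal.ofReal (1 / M) * (4 * C) + ENNReal.ofReal Real.pi *
          ∫⁻ z in K, ∫⁻ s in Ioc 0 S, ‖aa U V (F n) c z s - (TT τ z).real (Sq c s)‖ₑ) atTop
        (𝓝 (volume K * (ENNReal.ofReal (Real.pi * ε) * ENNReal.ofReal S +
        ENNReal.ofReal ε) + ENNReal.ofReal (1 / M) * (4 * C) + ENNReal.ofReal Real.pi * 0)) := by
      apply Tendsto.const_add
      exact ENNReal.Tendsto.const_mul (D.conv_sq hK hKU hS hcS) (Or.inr ENNReal.ofReal_ne_top)
    rw [mul_zero, add_zero] at hlim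
    exact ge_of_tendsto hlim hev
  -- let the parameters go to their limits
  have hlim : Tendsto (fun k : ℕ => volume K *
      (ENNReal.ofReal (Real.pi * (1 / ((k : ℝ) + 1))) * ENNReal.ofReal S +
        ENNReal.ofReal (1 / ((k : ℝ) + 1))) +
        ENNReal.ofReal (1 / ((k : ℝ) + 1)) * (4 * C)) atTop
      (𝓝 (volume K * (ENNReal.ofReal (Real.pi * 0) * ENNReal.ofReal S +
        ENNReal.ofReal 0) + ENNReal.ofReal 0 * (4 * C))) := by
    have h1 := tendsto_one_div_add_atTop_nhds_zero_nat (𝕜 := ℝ)
    have h2 := ENNReal.tendsto_ofReal h1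
    have h3 := ENNReal.tendsto_ofReal (h1.const_mul Real.pi)
    refine Tendsto.add ?_ ?_
    · refine ENNReal.Tendsto.const_mul ?_ (Or.inr hK.measure_lt_top.ne)
      refine Tendsto.add ?_ h2
      exact ENNReal.Tendsto.mul_const h3 (Or.inr ENNReal.ofReal_ne_top)
    · exact ENNReal.Tendsto.mul_const h2 (Or.inr (ENNReal.mul_ne_top (by simp) D.hC))
  simp only [mul_zero, ENNReal.ofReal_zero, zero_mul, add_zero] at hlim
  have h5 : Φ ≤ 0 := by
    apply ge_of_tendsto' hlim
    intro k
    have hk : (0 : ℝ) < 1 / ((k : ℝ) + 1) := by positivity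
    have hk2 : (0 : ℝ) < (k : ℝ) + 1 := by positivity
    exact hstep _ _ hk hk2
  exact le_antisymm h5 zero_le

end Vale.Agent.P247.H514
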